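import Vale.Agent.P265.H336.Htpy

/-! Excision. -/

open Set Matrix

namespace Vale.Agent.P265.AS

variable {E E' : Type} [PseudoMetricSpace E] [PseudoMetricSpace E'] {k : Type} [Field k]

/-- A small tuple of `X` lies in `A` or in `L`. -/
theorem excisive {X A L : Set E} {δ : ℝ}
    (h : ∀ x ∈ X, x ∉ A → ∀ y ∈ X, dist x y < δ → y ∈ L) {n : ℕ} {x : Fin n → E}
    (hx : Sm X δ x) : (∀ i, x i ∈ A) ∨ ∀ i, x i ∈ L := by
  by_cases hA : ∀ i, x i ∈ A
  · exact Or.inl hA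
  · push Not at hA
    obtain ⟨i, hi⟩ := hA
    exact Or.inr fun j => h _ (hx.1 i) hi _ (hx.1 j) (hx.2 i j)

/-- **Excision**, upper bound. -/
theorem hh_le_excision {g : E → E} {X A L : Set E} (hLX : L ⊆ X) (hgL : Inv g L)
    {δ : ℝ} (hδ : 0 < δ) (h : ∀ x ∈ X, x ∉ A → ∀ y ∈ X, dist x y < δ → y ∈ L) (χ : k) (p : ℕ) :
    hh g χ X A p ≤ hh g χ L (L ∩ A) p := by
  refine qr_le_of_inj LinearMap.id (fun c hc => Zs_restrict hLX inter_subset_right hc) ?_
  rintro c ⟨hc, ε, hε, h1, h2⟩ ⟨b, hb, ε', hε', h1', h2'⟩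
  have hz : ∀ {n : ℕ} {x : Fin n → E}, Sm A (min ε ε') x → ∀ y : Fin p → E, Sub y x →
      rs k L p b y = 0 := by
    intro n x hx y hy
    by_cases hyL : ∀ i, y i ∈ L
    · rw [rs_of_mem hyL]
      have hy' := hx.sub hy
      exact h2' y ⟨fun i => ⟨hyL i, hy'.1 i⟩, fun i j => (hy'.2 i j).trans_le (min_le_right _ _)⟩
    · exact rs_of_notMem hyL
  refine ⟨rs k L p b, rs_eqv hgL hb, min (min ε ε') δ, lt_min (lt_min hε hε') hδ,
    fun x hx => ?_, fun x hx => ?_⟩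
  · rcases excisive h (hx.mono le_rfl (min_le_right _ _)) with hA | hL
    · have hxA : Sm A (min ε ε') x := ⟨hA, fun i j => (hx.2 i j).trans_le (min_le_left _ _)⟩
      rw [h2 x (hxA.mono le_rfl (min_le_left _ _)), d_eq_zero fun y hy => hz hxA y hy]
    · rw [d_rs hL]
      exact h1' x ⟨hL, fun i j => (hx.2 i j).trans_le
        ((min_le_left _ _).trans (min_le_right _ _))⟩
  · exact hz (hx.mono le_rfl (min_le_left _ _)) x (Sub.refl x)

/-- **Excision**, lower bound. -/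
theorem hh_ge_excision {g : E → E} {X A L : Set E} (hLX : L ⊆ X) (hgL : Inv g L)
    {δ : ℝ} (hδ : 0 < δ) (h : ∀ x ∈ X, x ∉ A → ∀ y ∈ X, dist x y < δ → y ∈ L) (χ : k) (p : ℕ) :
    hh g χ L (L ∩ A) p ≤ hh g χ X A p := by
  refine qr_le_of_inj (rs k L (p + 1)) ?_ ?_
  · rintro c ⟨hc, ε, hε, h1, h2⟩
    have hz : ∀ {n : ℕ} {x : Fin n → E}, Sm A ε x → ∀ y : Fin (p + 1) → E, Sub y x →
        rs k L (p + 1) c y = 0 := by
      intro n x hx y hy
      by_cases hyL : ∀ i, y i ∈ L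
      · rw [rs_of_mem hyL]
        have hy' := hx.sub hy
        exact h2 y ⟨fun i => ⟨hyL i, hy'.1 i⟩, fun i j => hy'.2 i j⟩
      · exact rs_of_notMem hyL
    refine ⟨rs_eqv hgL hc, min ε δ, lt_min hε hδ, fun x hx => ?_, fun x hx => ?_⟩
    · rcases excisive h (hx.mono le_rfl (min_le_right _ _)) with hA | hL
      · exact d_eq_zero fun y hy =>
          hz (x := x) ⟨hA, fun i j => (hx.2 i j).trans_le (min_le_left _ _)⟩ y hy
      · rw [d_rs hL]
        exact h1 x ⟨hL, fun i j => (hx.2 i j).trans_le (min_le_left _ _)⟩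
    · exact hz (hx.mono le_rfl (min_le_left _ _)) x (Sub.refl x)
  · rintro c - hcB
    have := Bs_restrict (X := X) (Y := L) (A := A) (B := L ∩ A) hLX inter_subset_right hcB
    exact Bs_congr this one_pos fun x hx => (rs_of_mem hx.1).symm

end Vale.Agent.P265.AS
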