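import Vale.Agent.P265.H336.Coh

/-! Homotopy invariance and its consequences. -/

open Set Matrix

namespace Vale.Agent.P265.AS

variable {E E' E'' : Type} [PseudoMetricSpace E] [PseudoMetricSpace E'] [PseudoMetricSpace E'']
  {k : Type} [Field k]

/-- `f` is a uniformly continuous equivariant map of pairs `(X, A) → (X', A')`. -/
structure IsMapP (g : E → E) (g' : E' → E') (X A : Set E) (X' A' : Set E') (f : E → E') :
    Prop where
  mapsX : ∀ x ∈ X, f x ∈ X'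
  mapsA : ∀ x ∈ A, f x ∈ A'
  eqv : ∀ x ∈ X, f (g x) = g' (f x)
  uc : ∀ ε > 0, ∃ δ > 0, ∀ x ∈ X, ∀ y ∈ X, dist x y < δ → dist (f x) (f y) < ε

/-- `H s`, `0 ≤ s ≤ 1`, is a uniformly continuous equivariant homotopy of maps of pairs
`(X, A) → (X', A')`. -/
structure IsHtpy (g : E → E) (g' : E' → E') (X A : Set E) (X' A' : Set E') (H : ℝ → E → E') :
    Prop where
  mapsX : ∀ s ∈ Icc (0 : ℝ) 1, ∀ x ∈ X, H s x ∈ X'
  mapsA : ∀ s ∈ Icc (0 : ℝ) 1, ∀ x ∈ A, H s x ∈ A'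
  eqv : ∀ s ∈ Icc (0 : ℝ) 1, ∀ x ∈ X, H s (g x) = g' (H s x)
  uc : ∀ ε > 0, ∃ δ > 0, ∀ s ∈ Icc (0 : ℝ) 1, ∀ t ∈ Icc (0 : ℝ) 1, ∀ x ∈ X, ∀ y ∈ X,
    |s - t| < δ → dist x y < δ → dist (H s x) (H t y) < ε

theorem IsHtpy.isMapP {g : E → E} {g' : E' → E'} {X A : Set E} {X' A' : Set E'} {H : ℝ → E → E'}
    (h : IsHtpy g g' X A X' A' H) {s : ℝ} (hs : s ∈ Icc (0 : ℝ) 1) :
    IsMapP g g' X A X' A' (H s) where
  mapsX := h.mapsX s hs
  mapsA := h.mapsA s hs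
  eqv := h.eqv s hs
  uc := fun ε hε => by
    obtain ⟨δ, hδ, h'⟩ := h.uc ε hε
    exact ⟨δ, hδ, fun x hx y hy hxy => h' s hs s hs x hx y hy (by simpa using hδ) hxy⟩

theorem Sm.map {g : E → E} {g' : E' → E'} {X A : Set E} {X' A' : Set E'} {f : E → E'} {δ ε : ℝ}
    (h : IsMapP g g' X A X' A' f) (hδ : ∀ x ∈ X, ∀ y ∈ X, dist x y < δ → dist (f x) (f y) < ε)
    {n : ℕ} {x : Fin n → E} (hx : Sm X δ x) : Sm X' ε (f ∘ x) :=
  ⟨fun i => h.mapsX _ (hx.1 i), fun i j => hδ _ (hx.1 i) _ (hx.1 j) (hx.2 i j)⟩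

theorem Sm.mapA {g : E → E} {g' : E' → E'} {X A : Set E} {X' A' : Set E'} {f : E → E'} {δ ε : ℝ}
    (h : IsMapP g g' X A X' A' f) (hA : A ⊆ X)
    (hδ : ∀ x ∈ X, ∀ y ∈ X, dist x y < δ → dist (f x) (f y) < ε)
    {n : ℕ} {x : Fin n → E} (hx : Sm A δ x) : Sm A' ε (f ∘ x) :=
  ⟨fun i => h.mapsA _ (hx.1 i), fun i j => hδ _ (hA (hx.1 i)) _ (hA (hx.1 j)) (hx.2 i j)⟩

theorem Eqv.pb {g : E → E} {g' : E' → E'} {X A : Set E} {X' A' : Set E'} {f : E → E'}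
    (h : IsMapP g g' X A X' A' f) {χ : k} {n : ℕ} {c : (Fin n → E') → k} (hc : Eqv g' χ X' c) :
    Eqv g χ X (AS.pb f c) := by
  intro x hx
  rw [pb_apply, pb_apply, ← hc (f ∘ x) fun i => h.mapsX _ (hx i)]
  congr 1
  funext i
  exact h.eqv _ (hx i)

theorem pb_mem_Zs {g : E → E} {g' : E' → E'} {X A : Set E} {X' A' : Set E'} {f : E → E'}
    (h : IsMapP g g' X A X' A' f) (hA : A ⊆ X) {χ : k} {p : ℕ} {c : (Fin (p + 1) → E') → k}
    (hc : c ∈ Zs g' χ X' A' p) : pb f c ∈ Zs g χ X A p := by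
  obtain ⟨hc, ε, hε, h1, h2⟩ := hc
  obtain ⟨δ, hδ, h3⟩ := h.uc ε hε
  refine ⟨hc.pb h, δ, hδ, fun x hx => ?_, fun x hx => ?_⟩
  · rw [d_pb, pb_apply, h1 _ (hx.map h h3)]
  · exact h2 _ (hx.mapA h hA h3)

theorem pb_mem_Bs {g : E → E} {g' : E' → E'} {X A : Set E} {X' A' : Set E'} {f : E → E'}
    (h : IsMapP g g' X A X' A' f) (hA : A ⊆ X) {χ : k} {p : ℕ} {c : (Fin (p + 1) → E') → k}
    (hc : c ∈ Bs g' χ X' A' p) : pb f c ∈ Bs g χ X A p := by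
  obtain ⟨b, hb, ε, hε, h1, h2⟩ := hc
  obtain ⟨δ, hδ, h3⟩ := h.uc ε hε
  refine ⟨pb f b, hb.pb h, δ, hδ, fun x hx => ?_, fun x hx => ?_⟩
  · rw [d_pb, pb_apply, pb_apply, h1 _ (hx.map h h3)]
  · exact h2 _ (hx.mapA h hA h3)

/-- Close maps. -/
theorem close_maps {g : E → E} {g' : E' → E'} {X A : Set E} {X' A' : Set E'} {f₀ f₁ : E → E'}
    (h₀ : IsMapP g g' X A X' A' f₀) (h₁ : IsMapP g g' X A X' A' f₁) (hA : A ⊆ X)
    {χ : k} {p : ℕ} {c : (Fin (p + 1) → E') → k}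
    (hc : Eqv g' χ X' c) {ε δ : ℝ} (hδ : 0 < δ) (h1 : ∀ x, Sm X' ε x → d c x = 0)
    (h2 : ∀ x, Sm A' ε x → c x = 0)
    (h00 : ∀ x ∈ X, ∀ y ∈ X, dist x y < δ → dist (f₀ x) (f₀ y) < ε)
    (h01 : ∀ x ∈ X, ∀ y ∈ X, dist x y < δ → dist (f₀ x) (f₁ y) < ε)
    (h11 : ∀ x ∈ X, ∀ y ∈ X, dist x y < δ → dist (f₁ x) (f₁ y) < ε) :
    pb f₁ c - pb f₀ c ∈ Bs g χ X A p := by
  have key : ∀ {n m : ℕ} {Y : Set E} {Y' : Set E'} (_ : Y ⊆ X) (_ : ∀ x ∈ Y, f₀ x ∈ Y')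
      (_ : ∀ x ∈ Y, f₁ x ∈ Y') {x : Fin n → E} (_ : Sm Y δ x) {y : Fin m → E'}
      (_ : ∀ i, ∃ j, y i = f₀ (x j) ∨ y i = f₁ (x j)), Sm Y' ε y := by
    intro n m Y Y' hY hf0 hf1 x hx y hy
    refine ⟨fun i => ?_, fun i j => ?_⟩
    · obtain ⟨j, hj | hj⟩ := hy i
      · exact hj ▸ hf0 _ (hx.1 j)
      · exact hj ▸ hf1 _ (hx.1 j)
    · obtain ⟨i', hi⟩ := hy i
      obtain ⟨j', hj⟩ := hy j
      have a := hY (hx.1 i')
      have b := hY (hx.1 j')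
      rcases hi with hi | hi <;> rcases hj with hj | hj <;> rw [hi, hj]
      · exact h00 _ a _ b (hx.2 _ _)
      · exact h01 _ a _ b (hx.2 _ _)
      · rw [dist_comm]; exact h01 _ b _ a (hx.2 _ _)
      · exact h11 _ a _ b (hx.2 _ _)
  refine ⟨prism f₀ f₁ c, ?_, δ, hδ, fun x hx => ?_, fun x hx => ?_⟩
  · intro x hx
    rw [prism_comp f₀ f₁ g g' c x (fun i => h₀.eqv _ (hx i)) fun i => h₁.eqv _ (hx i)]
    have : prism f₀ f₁ (pb g' c - χ • c) x = 0 := by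
      apply prism_eq_zero
      intro y hy
      rw [Pi.sub_apply, pb_apply, hc y, Pi.smul_apply, smul_eq_mul, sub_self]
      intro i
      obtain ⟨j, hj | hj⟩ := hy i
      · exact hj ▸ h₀.mapsX _ (hx j)
      · exact hj ▸ h₁.mapsX _ (hx j)
    rw [prism_sub, prism_smul, Pi.sub_apply, sub_eq_zero] at this
    exact this
  · have := d_prism f₀ f₁ c x
    rw [prism_eq_zero (c := d c) f₀ f₁ fun y hy =>
      h1 y (key le_rfl h₀.mapsX h₁.mapsX hx hy), add_zero] at this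
    exact this.symm
  · exact prism_eq_zero _ _ fun y hy => h2 y (key hA h₀.mapsA h₁.mapsA hx hy)

/-- **Homotopy invariance.** -/
theorem homotopy {g : E → E} {g' : E' → E'} {X A : Set E} {X' A' : Set E'} {H : ℝ → E → E'}
    (h : IsHtpy g g' X A X' A' H) (hA : A ⊆ X) {χ : k} {p : ℕ}
    {c : (Fin (p + 1) → E') → k} (hc : c ∈ Zs g' χ X' A' p) :
    pb (H 1) c - pb (H 0) c ∈ Bs g χ X A p := by
  obtain ⟨hc, ε, hε, h1, h2⟩ := hc
  obtain ⟨δ, hδ, h3⟩ := h.uc ε hε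
  have key : ∀ s ∈ Icc (0 : ℝ) 1, ∀ t ∈ Icc (0 : ℝ) 1, |s - t| < δ →
      pb (H t) c - pb (H s) c ∈ Bs g χ X A p := by
    intro s hs t ht hst
    refine close_maps (h.isMapP hs) (h.isMapP ht) hA hc hδ h1 h2 ?_ ?_ ?_
    · exact fun x hx y hy hxy => h3 s hs s hs x hx y hy (by simpa using hδ) hxy
    · exact fun x hx y hy hxy => h3 s hs t ht x hx y hy hst hxy
    · exact fun x hx y hy hxy => h3 t ht t ht x hx y hy (by simpa using hδ) hxy
  obtain ⟨N, hN⟩ := exists_nat_gt (1 / δ)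
  have hN0 : (0 : ℝ) < N := lt_trans (by positivity) hN
  have hN' : 1 / (N : ℝ) < δ := by
    rw [div_lt_iff₀ hN0]
    rw [div_lt_iff₀ hδ] at hN
    linarith [mul_comm (N : ℝ) δ]
  have hmem : ∀ i : ℕ, i ≤ N → (i : ℝ) / N ∈ Icc (0 : ℝ) 1 := fun i hi =>
    ⟨by positivity, by rw [div_le_one hN0]; exact_mod_cast hi⟩
  have ind : ∀ i : ℕ, i ≤ N → pb (H ((i : ℝ) / N)) c - pb (H 0) c ∈ Bs g χ X A p := by
    intro i
    induction i with
    | zero => intro _; simp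
    | succ i ih =>
      intro hi
      have e1 := ih (by omega)
      have e2 := key _ (hmem i (by omega)) _ (hmem (i + 1) hi) (by
        have : (i : ℝ) / N - ((i + 1 : ℕ) : ℝ) / N = -(1 / N) := by
          push_cast; field_simp; ring
        rw [this, abs_neg, abs_of_pos (by positivity)]
        exact hN')
      have := (Bs g χ X A p).add_mem e1 e2
      rwa [sub_add_sub_cancel'] at this
  have := ind N le_rfl
  rwa [div_self hN0.ne'] at this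

/-- A pair which is a homotopy retract of another has smaller cohomology. -/
theorem hh_le_of_retract {g : E → E} {g' : E' → E'} {X A : Set E} {X' A' : Set E'}
    {φ : E → E'} {ψ : E' → E} {H : ℝ → E → E} (hφ : IsMapP g g' X A X' A' φ)
    (hψ : IsMapP g' g X' A' X A ψ) (hH : IsHtpy g g X A X A H) (hA : A ⊆ X) (hA' : A' ⊆ X')
    (h0 : ∀ x ∈ X, H 0 x = x) (h1 : ∀ x ∈ X, H 1 x = ψ (φ x)) (χ : k)
    (p : ℕ) : hh g χ X A p ≤ hh g' χ X' A' p := by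
  refine qr_le_of_inj (pb ψ) (fun c hc => pb_mem_Zs hψ hA' hc) fun c hc hcB => ?_
  have e1 := pb_mem_Bs hφ hA hcB
  have e2 := homotopy hH hA hc
  have e3 := (Bs g χ X A p).sub_mem e1 e2
  refine Bs_congr e3 one_pos fun x hx => ?_
  have a0 : H 0 ∘ x = x := funext fun i => h0 _ (hx.1 i)
  have a1 : H 1 ∘ x = ψ ∘ φ ∘ x := funext fun i => h1 _ (hx.1 i)
  simp only [Pi.sub_apply, pb_apply, a0, a1]
  ring

theorem isMapP_id {g : E → E} {X A Y B : Set E} (h : X ⊆ Y) (h' : A ⊆ B) :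
    IsMapP g g X A Y B id :=
  ⟨fun _ hx => h hx, fun _ hx => h' hx, fun _ _ => rfl, fun ε hε => ⟨ε, hε, fun _ _ _ _ h => h⟩⟩

/-- The summand trick: `A ⊆ B ⊆ X` and a deformation of `(X, A)` pushing `B` into `A`. -/
theorem hh_le_of_push {g : E → E} {X A B : Set E} {H : ℝ → E → E} (hH : IsHtpy g g X A X A H)
    (hAB : A ⊆ B) (hB : B ⊆ X) (h0 : ∀ x ∈ X, H 0 x = x)
    (h1 : ∀ x ∈ B, H 1 x ∈ A) (χ : k) (p : ℕ) : hh g χ X A p ≤ hh g χ X B p := by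
  have hm := hH.isMapP (s := 1) ⟨zero_le_one, le_rfl⟩
  exact hh_le_of_retract (φ := id) (ψ := H 1) (isMapP_id le_rfl hAB)
    ⟨hm.mapsX, h1, hm.eqv, hm.uc⟩ hH (hAB.trans hB) hB h0 (fun _ _ => rfl) χ p

theorem hh_self {g : E → E} {X : Set E} (χ : k) (p : ℕ) : hh g χ X X p = 0 := by
  rw [hh_eq_zero_iff]
  rintro c ⟨hc, ε, hε, h1, h2⟩
  exact ⟨0, fun x _ => by simp, ε, hε, fun x hx => by rw [h2 x hx, d_zero]; rfl, fun _ _ => rfl⟩

/-- Restriction of a cochain to the tuples of `Y` (extension by zero). -/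
noncomputable def rs (k : Type) [Field k] (Y : Set E) (n : ℕ) :
    ((Fin n → E) → k) →ₗ[k] ((Fin n → E) → k) := by
  classical
  exact
  { toFun := fun c x => if ∀ i, x i ∈ Y then c x else 0
    map_add' := fun c c' => by
      funext x; simp only [Pi.add_apply]; split_ifs <;> simp
    map_smul' := fun a c => by
      funext x; simp only [Pi.smul_apply, RingHom.id_apply]; split_ifs <;> simp }

omit [PseudoMetricSpace E] in
theorem rs_of_mem {Y : Set E} {n : ℕ} {c : (Fin n → E) → k} {x : Fin n → E} (h : ∀ i, x i ∈ Y) :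
    rs k Y n c x = c x := by
  classical
  exact if_pos h

omit [PseudoMetricSpace E] in
theorem rs_of_notMem {Y : Set E} {n : ℕ} {c : (Fin n → E) → k} {x : Fin n → E}
    (h : ¬ ∀ i, x i ∈ Y) : rs k Y n c x = 0 := by
  classical
  exact if_neg h

omit [PseudoMetricSpace E] in
theorem rs_eqv {g : E → E} {χ : k} {X Y : Set E} (hY : Inv g Y) {n : ℕ} {c : (Fin n → E) → k}
    (hc : Eqv g χ Y c) : Eqv g χ X (rs k Y n c) := by
  intro x _
  by_cases h : ∀ i, x i ∈ Y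
  · rw [rs_of_mem h, rs_of_mem (x := g ∘ x) fun i => (hY _).2 (h i), hc x h]
  · rw [rs_of_notMem h, rs_of_notMem, mul_zero]
    exact fun h' => h fun i => (hY _).1 (h' i)

omit [PseudoMetricSpace E] in
theorem Eqv.sub {g : E → E} {χ : k} {X : Set E} {n : ℕ} {c c' : (Fin n → E) → k}
    (h : Eqv g χ X c) (h' : Eqv g χ X c') : Eqv g χ X (c - c') := fun x hx => by
  rw [Pi.sub_apply, Pi.sub_apply, h x hx, h' x hx]; ring

omit [PseudoMetricSpace E] in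
theorem d_rs {Y : Set E} {n : ℕ} {c : (Fin n → E) → k} {x : Fin (n + 1) → E}
    (h : ∀ i, x i ∈ Y) : d (rs k Y n c) x = d c x :=
  d_congr fun _ hy => rs_of_mem (sub_mem h hy)

/-- Subadditivity for triples `A ⊆ B ⊆ X`. -/
theorem hh_triple {g : E → E} {X A B : Set E} (hAB : A ⊆ B) (hB : B ⊆ X) (hgB : Inv g B)
    (χ : k) (p : ℕ) : hh g χ X A p ≤ hh g χ B A p + hh g χ X B p := by
  refine qr_le_add (Zs_restrict hB le_rfl) (Bs_restrict hB le_rfl)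
    (Zs_restrict le_rfl hAB) (fun c hc => Bs_mono hAB hc.2) ?_
  rintro c ⟨hc, ε, hε, h1, h2⟩ ⟨b, hb, ε', hε', h1', h2'⟩
  refine ⟨c - d (rs k B p b), ⟨hc.sub (rs_eqv hgB hb).d, min ε ε', lt_min hε hε',
    fun x hx => ?_, fun x hx => ?_⟩, ?_⟩
  · rw [d_sub, d_d, sub_zero]
    exact h1 x (hx.mono le_rfl (min_le_left _ _))
  · rw [Pi.sub_apply, d_rs hx.1, h1' x (hx.mono le_rfl (min_le_right _ _)), sub_self]
  · rw [sub_sub_cancel]
    refine d_mem_Bs (rs_eqv hgB hb) hε' fun x hx => ?_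
    rw [rs_of_mem fun i => hAB (hx.1 i)]
    exact h2' x hx

/-- If `(X, A)` has no cohomology in degree `p + 1`, then `(X, B)` has no more in degree `p + 1`
than `(B, A)` in degree `p`. -/
theorem hh_connect {g : E → E} {X A B : Set E} (hAB : A ⊆ B) (hB : B ⊆ X) (hgB : Inv g B)
    (χ : k) (p : ℕ) (h0 : hh g χ X A (p + 1) = 0) :
    hh g χ X B (p + 1) ≤ hh g χ B A p := by
  rw [hh_eq_zero_iff] at h0
  refine qr_le_of_surj (dL E k (p + 1) ∘ₗ rs k B (p + 1)) ?_ ?_ ?_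
  · rintro c ⟨hc, ε, hε, h1, h2⟩
    refine ⟨(rs_eqv (X := X) hgB hc).d, ε, hε, fun x hx => ?_, fun x hx => ?_⟩
    · change d (d _) x = 0
      rw [d_d]; rfl
    · change d (rs k B (p + 1) c) x = 0
      rw [d_rs hx.1, h1 x hx]
  · rintro c ⟨hc, -⟩ ⟨b, hb, ε, hε, h1, h2⟩
    refine ⟨rs k B (p + 1) c - d (rs k B p b), (rs_eqv hgB hc).sub (rs_eqv hgB hb).d, ε, hε,
      fun x hx => ?_, fun x hx => ?_⟩
    · rw [d_sub, d_d, sub_zero]; rfl
    · rw [Pi.sub_apply, rs_of_mem hx.1, d_rs hx.1, h1 x hx, sub_self]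
  · intro c hc
    have hcA : c ∈ Zs g χ X A (p + 1) := Zs_restrict le_rfl hAB hc
    obtain ⟨b, hb, ε, hε, h1, h2⟩ := h0 hcA
    obtain ⟨hc, ε', hε', h1', h2'⟩ := hc
    refine ⟨b, ⟨hb.mono hB, min ε ε', lt_min hε hε', fun x hx => ?_, fun x hx => ?_⟩, ?_⟩
    · rw [← h1 x (hx.mono hB (min_le_left _ _))]
      exact h2' x (hx.mono le_rfl (min_le_right _ _))
    · exact h2 x (hx.mono le_rfl (min_le_left _ _))
    · refine ⟨b - rs k B (p + 1) b, hb.sub (rs_eqv hgB (hb.mono hB)), ε, hε,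
        fun x hx => ?_, fun x hx => ?_⟩
      · rw [Pi.sub_apply, h1 x hx, d_sub]; rfl
      · rw [Pi.sub_apply, rs_of_mem hx.1, sub_self]

end Vale.Agent.P265.AS
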