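import Vale.Agent.P265.H336.Htpy
import Vale.Agent.P265.Flat.LDefs

/-! Interface of the Morse block: equivariant descents, cyclic covers, standard boxes around
critical orbits. -/

open Set Matrix Topology Manifold
open scoped ContDiff

namespace Vale.Agent.P265.AS

/-- `D s`, `0 ≤ s ≤ 1`, is a continuous `g`-equivariant homotopy of self maps of `P` starting at
the identity along which `F` does not increase, and `D 1` moves no point without strictly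
decreasing `F`. -/
structure Descent {E : Type} [TopologicalSpace E] (g : E → E) (P : Set E) (F : E → ℝ)
    (D : ℝ → E → E) : Prop where
  maps : ∀ s ∈ Icc (0 : ℝ) 1, ∀ x ∈ P, D s x ∈ P
  le : ∀ s ∈ Icc (0 : ℝ) 1, ∀ x ∈ P, F (D s x) ≤ F x
  zero : ∀ x ∈ P, D 0 x = x
  eqv : ∀ s ∈ Icc (0 : ℝ) 1, ∀ x ∈ P, D s (g x) = g (D s x)
  cont : ContinuousOn (fun q : ℝ × E => D q.1 q.2) (Icc (0 : ℝ) 1 ×ˢ P)
  strict : ∀ x ∈ P, F (D 1 x) = F x → D 1 x = x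

/-- A cyclic covering `π : N → M` of degree `n` with deck generator `g` and local lifts: `lift x m`
is the point over `m` near `x` when `m` is `δ`-close to `π x`. -/
structure CycCover (M N : Type) [MetricSpace M] [MetricSpace N] (n : ℕ) where
  π : N → M
  g : N → N
  lift : N → M → N
  δ : ℝ
  n_pos : 0 < n
  δ_pos : 0 < δ
  cont_π : Continuous π
  cont_g : Continuous g
  surj : Function.Surjective π
  π_g : ∀ x, π (g x) = π x
  iter : ∀ x, g^[n] x = x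
  free : ∀ x i, 0 < i → i < n → g^[i] x ≠ x
  fiber : ∀ x y, π x = π y → ∃ i < n, y = g^[i] x
  π_lift : ∀ x m, dist (π x) m < δ → π (lift x m) = m
  lift_self : ∀ x, lift x (π x) = x
  lift_g : ∀ x m, dist (π x) m < δ → lift (g x) m = g (lift x m)
  cont_lift : ContinuousOn (fun q : N × M => lift q.1 q.2) {q | dist (π q.1) q.2 < δ}

/-- A standard box around a critical orbit in the compact set `P`: `θ` parametrizes one sheet by
the box `‖w‖ ≤ r` (sup norm) of `ℝ^p × ℝ^q`, the `n` translates of the sheet by the `g^[i]` are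
disjoint, their union is a neighbourhood in `P` of each of its points with `‖κ x‖ < r`, and in
these coordinates `F = c - |u|² + |v|²`. -/
structure LocalBox {E : Type} [TopologicalSpace E] (g : E → E) (n : ℕ) (P : Set E) (F : E → ℝ)
    (p q : ℕ) (c r : ℝ) (θ : (Fin p → ℝ) × (Fin q → ℝ) → E)
    (κ : E → (Fin p → ℝ) × (Fin q → ℝ)) (σ : E → ℕ) (L : Set E) : Prop where
  r_pos : 0 < r
  L_sub : L ⊆ P
  inv : Inv g L
  θ_mem : ∀ w, ‖w‖ ≤ r → θ w ∈ L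
  κ_le : ∀ x ∈ L, ‖κ x‖ ≤ r
  κ_θ : ∀ w, ‖w‖ ≤ r → κ (θ w) = w
  σ_θ : ∀ w, ‖w‖ ≤ r → σ (θ w) = 0
  κ_g : ∀ x ∈ L, κ (g x) = κ x
  σ_g : ∀ x ∈ L, σ (g x) = if σ x + 1 < n then σ x + 1 else 0
  σ_lt : ∀ x ∈ L, σ x < n
  eq : ∀ x ∈ L, x = g^[σ x] (θ (κ x))
  cont_θ : ContinuousOn θ {w | ‖w‖ ≤ r}
  cont_κ : ContinuousOn κ L
  cont_σ : ContinuousOn σ L
  nhds : ∀ x ∈ L, ‖κ x‖ < r → L ∈ 𝓝[P] x
  value : ∀ x ∈ L, F x = c - ∑ i, (κ x).1 i ^ 2 + ∑ j, (κ x).2 j ^ 2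

/-- Statement of the abstract Morse inequality (to be proved by helper336). -/
def AbsMorse : Prop :=
  ∀ {E : Type} [MetricSpace E] (g : E → E) (n : ℕ) (P : Set E) (F : E → ℝ) (m : ℕ)
    (c r : Fin m → ℝ) (p q : Fin m → ℕ) (θ : ∀ i, (Fin (p i) → ℝ) × (Fin (q i) → ℝ) → E)
    (κ : ∀ i, E → (Fin (p i) → ℝ) × (Fin (q i) → ℝ)) (σ : Fin m → E → ℕ) (L : Fin m → Set E)
    (lo hi : ℝ), 0 < n → IsCompact P → Inv g P → ContinuousOn g P → (∀ x ∈ P, g^[n] x = x) →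
    ContinuousOn F P → (∀ x ∈ P, F (g x) = F x) → Function.Injective c →
    (∀ i, LocalBox g n P F (p i) (q i) (c i) (r i) (θ i) (κ i) (σ i) (L i)) →
    (∀ i, lo < c i) → (∀ x ∈ P, F x ≤ hi) →
    (∀ x ∈ P, lo ≤ F x → (∀ i, ¬ (x ∈ L i ∧ κ i x = 0)) →
      ∃ D, Descent g P F D ∧ ∃ U ∈ 𝓝[P] x, ∀ y ∈ U, F (D 1 y) < F y) →
    ∀ {k : Type} [Field k] (χ : k), χ ^ n = 1 → ∀ j,
      hh g χ P {x ∈ P | F x ≤ lo} j ≤ (Finset.univ.filter fun i => p i = j).card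

/-- Statement of the Morse inequality for functions quadratic at infinity on `M × ℝ^l`. -/
def MorseIneq : Prop :=
  ∀ {V : Type} [NormedAddCommGroup V] [NormedSpace ℝ V] [FiniteDimensional ℝ V]
    {M N : Type} [MetricSpace M] [CompactSpace M] [Nonempty M] [ChartedSpace V M]
    [IsManifold 𝓘(ℝ, V) ∞ M] [MetricSpace N] [CompactSpace N] {n : ℕ} (C : CycCover M N n)
    (l : ℕ) (F : M × EuclideanSpace ℝ (Fin l) → ℝ),
    Loc.IsMorse (𝓘(ℝ, V).prod 𝓘(ℝ, EuclideanSpace ℝ (Fin l))) F →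
    (Nontrivial (EuclideanSpace ℝ (Fin l)) →
      ∃ (Q : QuadraticForm ℝ (EuclideanSpace ℝ (Fin l))) (R : ℝ),
        (∀ v, (∀ w, QuadraticMap.polar Q v w = 0) → v = 0) ∧
        0 < R ∧ ∀ x z, R ≤ ‖z‖ → F (x, z) = Q z) →
    (Loc.Crit (𝓘(ℝ, V).prod 𝓘(ℝ, EuclideanSpace ℝ (Fin l))) F).Finite →
    ∃ (idx : M × EuclideanSpace ℝ (Fin l) → ℕ) (ν : ℕ),
      ∀ {k : Type} [Field k] (χ : k), χ ^ n = 1 → ∀ j,
        hh C.g χ univ ∅ j ≤
          ({x ∈ Loc.Crit (𝓘(ℝ, V).prod 𝓘(ℝ, EuclideanSpace ℝ (Fin l))) F |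
            idx x = j + ν}.ncard : Cardinal)

end Vale.Agent.P265.AS
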