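import Vale.Agent.P265.H336.Exc
import Vale.Agent.P265.H336.Iface

/-! Descents on compact sets, and what they do to the cohomology of sublevel sets. -/

open Set Matrix Topology

namespace Vale.Agent.P265.AS

section Uniform

variable {E E' : Type} [PseudoMetricSpace E] [PseudoMetricSpace E']

theorem uc_of_compact {X : Set E} {H : ℝ → E → E'} (hX : IsCompact X)
    (hc : ContinuousOn (fun q : ℝ × E => H q.1 q.2) (Icc (0 : ℝ) 1 ×ˢ X)) :
    ∀ ε > 0, ∃ δ > 0, ∀ s ∈ Icc (0 : ℝ) 1, ∀ t ∈ Icc (0 : ℝ) 1, ∀ x ∈ X, ∀ y ∈ X,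
    |s - t| < δ → dist x y < δ → dist (H s x) (H t y) < ε := by
  have h := (isCompact_Icc.prod hX).uniformContinuousOn_of_continuous hc
  rw [Metric.uniformContinuousOn_iff] at h
  intro ε hε
  obtain ⟨δ, hδ, h⟩ := h ε hε
  refine ⟨δ, hδ, fun s hs t ht x hx y hy hst hxy => h (s, x) ⟨hs, hx⟩ (t, y) ⟨ht, hy⟩ ?_⟩
  rw [Prod.dist_eq, max_lt_iff]
  exact ⟨by rwa [Real.dist_eq], hxy⟩

theorem uc_of_compact' {X : Set E} {f : E → E'} (hX : IsCompact X) (hc : ContinuousOn f X) :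
    ∀ ε > 0, ∃ δ > 0, ∀ x ∈ X, ∀ y ∈ X, dist x y < δ → dist (f x) (f y) < ε := by
  have h := hX.uniformContinuousOn_of_continuous hc
  rw [Metric.uniformContinuousOn_iff] at h
  exact fun ε hε => by
    obtain ⟨δ, hδ, h⟩ := h ε hε
    exact ⟨δ, hδ, fun x hx y hy hxy => h x hx y hy hxy⟩

end Uniform

section Descent

variable {E : Type} [TopologicalSpace E] {g : E → E} {P : Set E} {F : E → ℝ}

theorem Descent.id (g : E → E) (P : Set E) (F : E → ℝ) : Descent g P F fun _ x => x where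
  maps := fun _ _ _ hx => hx
  le := fun _ _ _ _ => le_rfl
  zero := fun _ _ => rfl
  eqv := fun _ _ _ _ => rfl
  cont := continuous_snd.continuousOn
  strict := fun _ _ _ => rfl

theorem Descent.comp {D₁ D₂ : ℝ → E → E} (h₂ : Descent g P F D₂) (h₁ : Descent g P F D₁) :
    Descent g P F fun s x => D₂ s (D₁ s x) where
  maps := fun s hs x hx => h₂.maps s hs _ (h₁.maps s hs x hx)
  le := fun s hs x hx => (h₂.le s hs _ (h₁.maps s hs x hx)).trans (h₁.le s hs x hx)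
  zero := fun x hx => by rw [h₁.zero x hx, h₂.zero x hx]
  eqv := fun s hs x hx => by rw [h₁.eqv s hs x hx, h₂.eqv s hs _ (h₁.maps s hs x hx)]
  cont := by
    have : ContinuousOn (fun q : ℝ × E => (q.1, D₁ q.1 q.2)) (Icc (0 : ℝ) 1 ×ˢ P) :=
      continuous_fst.continuousOn.prodMk h₁.cont
    exact h₂.cont.comp this fun q hq => ⟨hq.1, h₁.maps q.1 hq.1 q.2 hq.2⟩
  strict := fun x hx h => by
    have hs : (1 : ℝ) ∈ Icc (0 : ℝ) 1 := ⟨zero_le_one, le_rfl⟩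
    have e1 := h₁.le 1 hs x hx
    have e2 := h₂.le 1 hs _ (h₁.maps 1 hs x hx)
    have e3 := h₁.strict x hx (le_antisymm e1 (h ▸ e2))
    rw [e3] at h ⊢
    exact h₂.strict x hx h

theorem Descent.lt_comp {D₁ D₂ : ℝ → E → E} (h₂ : Descent g P F D₂) (h₁ : Descent g P F D₁)
    {x : E} (hx : x ∈ P) (h : F (D₁ 1 x) < F x ∨ F (D₂ 1 x) < F x) :
    F (D₂ 1 (D₁ 1 x)) < F x := by
  have hs : (1 : ℝ) ∈ Icc (0 : ℝ) 1 := ⟨zero_le_one, le_rfl⟩
  have e1 := h₁.le 1 hs x hx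
  have e2 := h₂.le 1 hs _ (h₁.maps 1 hs x hx)
  rcases lt_or_eq_of_le e1 with e | e
  · exact e2.trans_lt e
  · rw [h₁.strict x hx e]
    rcases h with h | h
    · exact absurd h (by rw [e]; exact lt_irrefl _)
    · exact h

/-- Local descents can be combined along a compact set. -/
theorem exists_descent {K : Set E} (hK : IsCompact K) (hKP : K ⊆ P)
    (h : ∀ x ∈ K, ∃ D, Descent g P F D ∧ ∃ U ∈ 𝓝[P] x, ∀ y ∈ U, F (D 1 y) < F y) :
    ∃ D, Descent g P F D ∧ ∀ x ∈ K, F (D 1 x) < F x := by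
  have key : ∃ D, Descent g P F D ∧ ∀ x ∈ K ∩ P, F (D 1 x) < F x := by
    refine hK.induction_on (p := fun s => ∃ D, Descent g P F D ∧ ∀ x ∈ s ∩ P, F (D 1 x) < F x)
      ⟨_, Descent.id g P F, fun x hx => absurd hx.1 (notMem_empty x)⟩ ?_ ?_ ?_
    · rintro s t hst ⟨D, hD, h⟩
      exact ⟨D, hD, fun x hx => h x ⟨hst hx.1, hx.2⟩⟩
    · rintro s t ⟨D₁, hD₁, h₁⟩ ⟨D₂, hD₂, h₂⟩
      refine ⟨_, hD₂.comp hD₁, fun x hx => hD₂.lt_comp hD₁ hx.2 ?_⟩
      rcases hx.1 with h | h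
      · exact Or.inl (h₁ x ⟨h, hx.2⟩)
      · exact Or.inr (h₂ x ⟨h, hx.2⟩)
    · intro x hx
      obtain ⟨D, hD, U, hU, hlt⟩ := h x hx
      refine ⟨U, nhdsWithin_mono x hKP hU, D, hD, fun y hy => hlt y hy.1⟩
  obtain ⟨D, hD, h⟩ := key
  exact ⟨D, hD, fun x hx => h x ⟨hx, hKP hx⟩⟩

end Descent

section Sublevel

variable {E : Type} [PseudoMetricSpace E] {g : E → E} {P : Set E} {F : E → ℝ} {k : Type} [Field k]

/-- Sublevel sets in `P`. -/
def Sub' (P : Set E) (F : E → ℝ) (t : ℝ) : Set E := {x ∈ P | F x ≤ t}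

omit [PseudoMetricSpace E] in
theorem Sub'_mono {s t : ℝ} (h : s ≤ t) : Sub' P F s ⊆ Sub' P F t := fun _ hx =>
  ⟨hx.1, hx.2.trans h⟩

omit [PseudoMetricSpace E] in
theorem Sub'_inv (hP : Inv g P) (hF : ∀ x ∈ P, F (g x) = F x) (t : ℝ) : Inv g (Sub' P F t) := by
  intro x
  constructor
  · rintro ⟨h1, h2⟩
    have h1' := (hP x).1 h1
    exact ⟨h1', by rwa [hF x h1'] at h2⟩
  · rintro ⟨h1, h2⟩
    exact ⟨(hP x).2 h1, by rwa [hF x h1]⟩

theorem Descent.isHtpy {D : ℝ → E → E} (hD : Descent g P F D) (hP : IsCompact P)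
    {X A : Set E} (hX : X ⊆ P) (hXD : ∀ s ∈ Icc (0 : ℝ) 1, ∀ x ∈ X, D s x ∈ X)
    (hAD : ∀ s ∈ Icc (0 : ℝ) 1, ∀ x ∈ A, D s x ∈ A) : IsHtpy g g X A X A D where
  mapsX := hXD
  mapsA := hAD
  eqv := fun s hs x hx => hD.eqv s hs x (hX hx)
  uc := fun ε hε => by
    obtain ⟨δ, hδ, h⟩ := uc_of_compact hP hD.cont ε hε
    exact ⟨δ, hδ, fun s hs t ht x hx y hy => h s hs t ht x (hX hx) y (hX hy)⟩

theorem Descent.maps_sub {D : ℝ → E → E} (hD : Descent g P F D) (t : ℝ) :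
    ∀ s ∈ Icc (0 : ℝ) 1, ∀ x ∈ Sub' P F t, D s x ∈ Sub' P F t := fun s hs x hx =>
  ⟨hD.maps s hs x hx.1, (hD.le s hs x hx.1).trans hx.2⟩

/-- A descent pushing the part `B` of `Sub' t` below level `s`. -/
theorem Descent.hh_le {D : ℝ → E → E} (hD : Descent g P F D) (hP : IsCompact P) {s t : ℝ}
    {B : Set E} (hsB : Sub' P F s ⊆ B) (hBt : B ⊆ Sub' P F t) (h : ∀ x ∈ B, F (D 1 x) ≤ s)
    (χ : k) (p : ℕ) : hh g χ (Sub' P F t) (Sub' P F s) p ≤ hh g χ (Sub' P F t) B p := by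
  refine hh_le_of_push (hD.isHtpy hP (fun x hx => hx.1) (hD.maps_sub t) (hD.maps_sub s)) hsB hBt
    (fun x hx => hD.zero x hx.1) (fun x hx => ⟨?_, h x hx⟩) χ p
  exact hD.maps 1 ⟨zero_le_one, le_rfl⟩ x (hBt hx).1

theorem exists_gap {D : ℝ → E → E} (hD : Descent g P F D) (hF : ContinuousOn F P) {K : Set E}
    (hK : IsCompact K) (hKP : K ⊆ P) (h : ∀ x ∈ K, F (D 1 x) < F x) :
    ∃ η > 0, ∀ x ∈ K, F (D 1 x) ≤ F x - η := by
  have hs : (1 : ℝ) ∈ Icc (0 : ℝ) 1 := ⟨zero_le_one, le_rfl⟩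
  rcases K.eq_empty_or_nonempty with rfl | hne
  · exact ⟨1, one_pos, fun x hx => absurd hx (notMem_empty x)⟩
  have hc : ContinuousOn (fun x => F x - F (D 1 x)) K := by
    refine (hF.mono hKP).sub ?_
    refine hF.comp (t := P) ?_ fun x hx => hD.maps 1 hs x (hKP hx)
    exact hD.cont.comp (f := fun x => ((1 : ℝ), x)) (by fun_prop) fun x hx => ⟨hs, hKP hx⟩
  obtain ⟨x₀, hx₀, hmin⟩ := hK.exists_isMinOn hne hc
  refine ⟨F x₀ - F (D 1 x₀), sub_pos.2 (h x₀ hx₀), fun x hx => ?_⟩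
  have := hmin hx
  have h2 : F x₀ - F (D 1 x₀) ≤ F x - F (D 1 x) := this
  linarith

theorem isCompact_slab (hP : IsCompact P) (hF : ContinuousOn F P) (a b : ℝ) :
    IsCompact {x ∈ P | a ≤ F x ∧ F x ≤ b} := by
  obtain ⟨u, hu, h⟩ := continuousOn_iff_isClosed.1 hF (Icc a b) isClosed_Icc
  have : {x ∈ P | a ≤ F x ∧ F x ≤ b} = P ∩ u := by
    rw [inter_comm P u, ← h, inter_comm]; rfl
  rw [this]
  exact hP.inter_right hu

/-- No critical values in `[a, b]`. -/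
theorem hh_regular (hP : IsCompact P) (hgP : Inv g P) (hF : ContinuousOn F P)
    (hFg : ∀ x ∈ P, F (g x) = F x) {a b : ℝ}
    (h : ∀ x ∈ P, a ≤ F x → F x ≤ b →
      ∃ D, Descent g P F D ∧ ∃ U ∈ 𝓝[P] x, ∀ y ∈ U, F (D 1 y) < F y) (χ : k) (p : ℕ) :
    hh g χ (Sub' P F b) (Sub' P F a) p = 0 := by
  obtain ⟨D, hD, hlt⟩ := exists_descent (g := g) (isCompact_slab hP hF a b) (fun x hx => hx.1)
    fun x hx => h x hx.1 hx.2.1 hx.2.2
  obtain ⟨η, hη, hgap⟩ := exists_gap hD hF (isCompact_slab hP hF a b) (fun x hx => hx.1) hlt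
  have step : ∀ s t : ℝ, a ≤ s → s ≤ t → t ≤ b → t ≤ s + η →
      hh g χ (Sub' P F t) (Sub' P F s) p = 0 := by
    intro s t hs hst htb ht
    refine le_antisymm ?_ zero_le
    rw [← hh_self (g := g) (X := Sub' P F t) χ p]
    refine hD.hh_le hP (Sub'_mono hst) le_rfl (fun x hx => ?_) χ p
    rcases le_total (F x) s with h1 | h1
    · exact (hD.le 1 ⟨zero_le_one, le_rfl⟩ x hx.1).trans h1
    · have := hgap x ⟨hx.1, hs.trans h1, hx.2.trans htb⟩
      linarith [hx.2]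
  have ind : ∀ m : ℕ, ∀ t : ℝ, a ≤ t → t ≤ b → t ≤ a + m * η →
      hh g χ (Sub' P F t) (Sub' P F a) p = 0 := by
    intro m
    induction m with
    | zero =>
      intro t ht _ ht'
      have : t = a := le_antisymm (by simpa using ht') ht
      rw [this, hh_self]
    | succ m ih =>
      intro t ht htb ht'
      push_cast at ht'
      have h1 : a ≤ max a (t - η) := le_max_left _ _
      have h2 : max a (t - η) ≤ t := max_le ht (by linarith)
      have h3 : max a (t - η) ≤ a + m * η := max_le (by nlinarith [Nat.cast_nonneg (α := ℝ) m])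
        (by linarith)
      have e1 := ih (max a (t - η)) h1 (h2.trans htb) h3
      have e2 := step (max a (t - η)) t h1 h2 htb (by
        have := le_max_right a (t - η); linarith)
      have e3 := hh_triple (g := g) (X := Sub' P F t) (A := Sub' P F a)
        (B := Sub' P F (max a (t - η))) (Sub'_mono h1) (Sub'_mono h2) (Sub'_inv hgP hFg _) χ p
      rw [e1, e2, add_zero] at e3
      exact le_antisymm e3 zero_le
  rcases le_total a b with hab | hab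
  · obtain ⟨m, hm⟩ := exists_nat_gt ((b - a) / η)
    refine ind m b hab le_rfl ?_
    rw [div_lt_iff₀ hη] at hm
    linarith
  · refine le_antisymm ?_ zero_le
    rw [hh_eq_zero_iff.2 ?_]
    rintro c ⟨hc, ε, hε, h1, h2⟩
    exact ⟨0, fun x _ => by simp, ε, hε, fun x hx => by
      rw [h2 x (hx.mono (Sub'_mono hab) le_rfl), d_zero]; rfl, fun _ _ => rfl⟩

end Sublevel

end Vale.Agent.P265.AS
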