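import Vale.Agent.P265.H336.Level

/-! The pair (cube, complement of a round ball) has no more cohomology than the pair
(cube, complement of a smaller cube). -/

open Set Matrix Topology

namespace Vale.Agent.P265.AS

/-- Clamping to `[-a, a]`. -/
noncomputable def cl (a t : ℝ) : ℝ := max (-a) (min a t)

theorem continuous_cl (a : ℝ) : Continuous (cl a) := by unfold cl; fun_prop

theorem abs_cl_le {a : ℝ} (ha : 0 ≤ a) (t : ℝ) : |cl a t| ≤ a := by
  unfold cl
  rw [abs_le]
  exact ⟨le_max_left _ _, max_le (by linarith) (min_le_left _ _)⟩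

theorem cl_of_abs_le {a t : ℝ} (h : |t| ≤ a) : cl a t = t := by
  unfold cl
  rw [abs_le] at h
  rw [min_eq_right h.2, max_eq_right h.1]

theorem le_abs_cl {a t b : ℝ} (ha : 0 ≤ a) (hb : b ≤ a) (h : b ≤ |t|) : b ≤ |cl a t| := by
  unfold cl
  rcases le_total 0 t with ht | ht
  · rw [abs_of_nonneg ht] at h
    have : 0 ≤ min a t := le_min ha ht
    rw [max_eq_right (by linarith), abs_of_nonneg this]
    exact le_min hb h
  · rw [abs_of_nonpos ht] at h
    rw [min_eq_right (by linarith)]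
    have : max (-a) t ≤ 0 := max_le (by linarith) ht
    rw [abs_of_nonpos this, le_neg]
    exact max_le (by linarith) (by linarith)

theorem abs_le_abs_cl {a t m : ℝ} (ht : |t| ≤ a) (hm : 1 ≤ m) : |t| ≤ |cl a (m * t)| := by
  refine le_abs_cl ((abs_nonneg t).trans ht) ht ?_
  rw [abs_mul, abs_of_nonneg (by linarith : (0 : ℝ) ≤ m)]
  nlinarith [abs_nonneg t]

/-- The cube. -/
def cube (l : ℕ) (a : ℝ) : Set (Fin l → ℝ) := {u | ∀ i, |u i| ≤ a}

/-- The part of the cube outside a smaller one. -/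
def cubeOut (l : ℕ) (a b : ℝ) : Set (Fin l → ℝ) := {u | (∀ i, |u i| ≤ a) ∧ ∃ i, b ≤ |u i|}

/-- The part of the cube outside a round ball. -/
def ballOut (l : ℕ) (a ε : ℝ) : Set (Fin l → ℝ) := {u | (∀ i, |u i| ≤ a) ∧ ε ≤ ∑ i, u i ^ 2}

theorem isCompact_cube (l : ℕ) (a : ℝ) : IsCompact (cube l a) := by
  have : cube l a = Set.pi univ fun _ => Icc (-a) a := by
    ext u
    simp [cube, abs_le, Set.pi]
  rw [this]
  exact isCompact_univ_pi fun _ => isCompact_Icc

theorem hh_ball_le {k : Type} [Field k] (l : ℕ) {a ε : ℝ} (ha : 0 < a) (hε : 0 < ε)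
    (hεa : ε ≤ a ^ 2) (χ : k) (j : ℕ) :
    hh id χ (cube l a) (ballOut l a ε) j ≤
      hh id χ (cube l a) (cubeOut l a (√(ε / (l + 1)))) j := by
  set b : ℝ := √(ε / (l + 1)) with hb
  set m : ℝ := √(l + 1) with hm
  have hl : (0 : ℝ) < l + 1 := by positivity
  have hm1 : 1 ≤ m := by rw [hm, Real.one_le_sqrt]; linarith [Nat.cast_nonneg (α := ℝ) l]
  have hmb : m * b = √ε := by
    rw [hm, hb, ← Real.sqrt_mul hl.le]
    congr 1
    field_simp
  have hb2 : b ^ 2 = ε / (l + 1) := Real.sq_sqrt (by positivity)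
  have hεa' : √ε ≤ a := by rw [Real.sqrt_le_left ha.le]; exact hεa
  refine hh_le_of_retract (φ := id) (ψ := fun u i => cl a (m * u i))
    (H := fun s u i => cl a ((1 + s * (m - 1)) * u i)) ?_ ?_ ?_ (fun u hu => hu.1)
    (fun u hu => hu.1) ?_ ?_ χ j
  · refine isMapP_id le_rfl fun u hu => ⟨hu.1, ?_⟩
    by_contra h
    push Not at h
    have h1 : ∑ i, u i ^ 2 ≤ ∑ i : Fin l, b ^ 2 := Finset.sum_le_sum fun i _ => by
      rw [← sq_abs]
      exact pow_le_pow_left₀ (abs_nonneg _) (h i).le 2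
    rw [Finset.sum_const, Finset.card_univ, Fintype.card_fin, nsmul_eq_mul, hb2] at h1
    have h2 : (l : ℝ) * (ε / (l + 1)) < ε := by
      rw [mul_div_assoc', div_lt_iff₀ hl]; nlinarith
    linarith [hu.2]
  · refine ⟨fun u _ i => abs_cl_le ha.le _, fun u hu => ⟨fun i => abs_cl_le ha.le _, ?_⟩,
      fun _ _ => rfl, uc_of_compact' (isCompact_cube l a) ?_⟩
    · obtain ⟨i, hi⟩ := hu.2
      have h1 : √ε ≤ |cl a (m * u i)| := by
        refine le_abs_cl ha.le hεa' ?_
        rw [← hmb, abs_mul, abs_of_nonneg (zero_le_one.trans hm1)]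
        exact mul_le_mul_of_nonneg_left hi (zero_le_one.trans hm1)
      calc ε = √ε ^ 2 := (Real.sq_sqrt hε.le).symm
        _ ≤ |cl a (m * u i)| ^ 2 := pow_le_pow_left₀ (Real.sqrt_nonneg _) h1 2
        _ = cl a (m * u i) ^ 2 := sq_abs _
        _ ≤ ∑ i, cl a (m * u i) ^ 2 :=
          Finset.single_le_sum (f := fun i => cl a (m * u i) ^ 2) (fun i _ => sq_nonneg _)
            (Finset.mem_univ i)
    · refine Continuous.continuousOn (continuous_pi fun i => ?_)
      exact (continuous_cl a).comp (by fun_prop)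
  · refine ⟨fun s _ u _ i => abs_cl_le ha.le _, fun s hs u hu => ⟨fun i => abs_cl_le ha.le _,
      hu.2.trans (Finset.sum_le_sum fun i _ => ?_)⟩, fun _ _ _ _ => rfl,
      uc_of_compact (isCompact_cube l a) ?_⟩
    · rw [← sq_abs, ← sq_abs (cl a _)]
      exact pow_le_pow_left₀ (abs_nonneg _) (abs_le_abs_cl (hu.1 i) (by nlinarith [hs.1])) 2
    · refine Continuous.continuousOn (continuous_pi fun i => ?_)
      exact (continuous_cl a).comp (by fun_prop)
  · intro u hu
    funext i
    simp only [zero_mul, add_zero, one_mul]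
    exact cl_of_abs_le (hu i)
  · intro u _
    funext i
    simp

end Vale.Agent.P265.AS
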