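import Vale.Agent.P265.H336.Exc
import Vale.Agent.P265.H336.Ball

/-! Suspensions, cubes, points. -/

open Set Matrix

namespace Vale.Agent.P265.AS

section General

variable {E E' : Type} [PseudoMetricSpace E] [PseudoMetricSpace E'] {k : Type} [Field k]
  {g : E → E}

theorem isHtpy_const {X A : Set E} : IsHtpy g g X A X A fun _ x => x :=
  ⟨fun _ _ _ h => h, fun _ _ _ h => h, fun _ _ _ _ => rfl,
    fun ε hε => ⟨ε, hε, fun _ _ _ _ _ _ _ _ _ h => h⟩⟩

/-- Pairs related by maps `φ`, `ψ` with `ψ ∘ φ = id` on `X`. -/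
theorem hh_le_of_section {g' : E' → E'} {X A : Set E} {X' A' : Set E'}
    {φ : E → E'} {ψ : E' → E} (hφ : IsMapP g g' X A X' A' φ)
    (hψ : IsMapP g' g X' A' X A ψ) (hA : A ⊆ X) (hA' : A' ⊆ X')
    (h1 : ∀ x ∈ X, ψ (φ x) = x) (χ : k)
    (p : ℕ) : hh g χ X A p ≤ hh g' χ X' A' p :=
  hh_le_of_retract hφ hψ isHtpy_const hA hA' (fun _ _ => rfl) (fun x hx => (h1 x hx).symm) χ p

theorem hh_zero_mono {X A B : Set E} (hAB : A ⊆ B) (χ : k) :
    hh g χ X B 0 ≤ hh g χ X A 0 := by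
  refine qr_le_of_inj LinearMap.id (fun c hc => Zs_restrict le_rfl hAB hc) ?_
  rintro c - ⟨b, hb, ε, hε, h1, h2⟩
  refine ⟨b, hb, ε, hε, h1, fun x _ => ?_⟩
  exact h2 x ⟨fun i => i.elim0, fun i => i.elim0⟩

end General

section Susp

variable {E : Type} [PseudoMetricSpace E] {k : Type} [Field k] {g : E → E}

/-- `X × [-a, a]`. -/
def sus (X : Set E) (a : ℝ) : Set (E × ℝ) := {x | x.1 ∈ X ∧ |x.2| ≤ a}

/-- `X₀ × [-a, a] ∪ X × {b ≤ |t|}`. -/
def sus₀ (X X₀ : Set E) (a b : ℝ) : Set (E × ℝ) :=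
  {x | x.1 ∈ X ∧ |x.2| ≤ a ∧ (x.1 ∈ X₀ ∨ b ≤ |x.2|)}

/-- `X₀ × [-a, a] ∪ X × {t ≤ -b}`. -/
def sus₁ (X X₀ : Set E) (a b : ℝ) : Set (E × ℝ) :=
  {x | x.1 ∈ X ∧ |x.2| ≤ a ∧ (x.1 ∈ X₀ ∨ x.2 ≤ -b)}

theorem lin_uc {a e : ℝ} (he : |e| ≤ a) {ε : ℝ} (hε : 0 < ε) :
    ∃ δ > 0, ∀ s ∈ Icc (0 : ℝ) 1, ∀ t ∈ Icc (0 : ℝ) 1, ∀ x y : E × ℝ, |x.2| ≤ a → |y.2| ≤ a →
      |s - t| < δ → dist x y < δ →
      dist ((x.1, (1 - s) * x.2 + s * e) : E × ℝ) (y.1, (1 - t) * y.2 + t * e) < ε := by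
  have ha : 0 ≤ a := (abs_nonneg _).trans he
  refine ⟨ε / (1 + 2 * a), by positivity, fun s hs t ht x y hx hy hst hxy => ?_⟩
  rw [Prod.dist_eq, max_lt_iff] at hxy ⊢
  have h0 : ε / (1 + 2 * a) ≤ ε := div_le_self hε.le (by linarith)
  refine ⟨hxy.1.trans_le h0, ?_⟩
  have h1 := hxy.2
  simp only [Real.dist_eq] at h1 ⊢
  have e1 : (1 - s) * x.2 + s * e - ((1 - t) * y.2 + t * e) =
      (1 - s) * (x.2 - y.2) + (s - t) * (e - y.2) := by ring
  rw [e1]
  have h2 : |(1 - s) * (x.2 - y.2)| ≤ |x.2 - y.2| := by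
    rw [abs_mul]
    have : |1 - s| ≤ 1 := by rw [abs_le]; constructor <;> linarith [hs.1, hs.2]
    nlinarith [abs_nonneg (x.2 - y.2)]
  have h3 : |(s - t) * (e - y.2)| ≤ |s - t| * (2 * a) := by
    rw [abs_mul]
    refine mul_le_mul_of_nonneg_left ?_ (abs_nonneg _)
    calc |e - y.2| ≤ |e| + |y.2| := abs_sub _ _
      _ ≤ 2 * a := by linarith
  have h4 : |s - t| * (2 * a) ≤ ε / (1 + 2 * a) * (2 * a) :=
    mul_le_mul_of_nonneg_right hst.le (by positivity)
  have h5 : ε / (1 + 2 * a) + ε / (1 + 2 * a) * (2 * a) = ε := by field_simp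
  have := abs_add_le ((1 - s) * (x.2 - y.2)) ((s - t) * (e - y.2))
  linarith

theorem conv_le {a s t e : ℝ} (hs : s ∈ Icc (0 : ℝ) 1) (ht : |t| ≤ a) (he : |e| ≤ a) :
    |(1 - s) * t + s * e| ≤ a := by
  rw [abs_le] at *
  constructor <;> nlinarith [hs.1, hs.2, ht.1, ht.2, he.1, he.2]

variable {X X₀ : Set E} {a b : ℝ}

omit [PseudoMetricSpace E] in
theorem sus₀_sub : sus₀ X X₀ a b ⊆ sus X a := fun _ h => ⟨h.1, h.2.1⟩

omit [PseudoMetricSpace E] in
theorem sus₁_sub : sus₁ X X₀ a b ⊆ sus X a := fun _ h => ⟨h.1, h.2.1⟩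

omit [PseudoMetricSpace E] in
theorem sus₁_sub₀ (hb : 0 < b) : sus₁ X X₀ a b ⊆ sus₀ X X₀ a b := fun _ h =>
  ⟨h.1, h.2.1, h.2.2.imp id fun h => by rw [abs_of_nonpos (by linarith)]; linarith⟩

theorem hh_sus_sus₁ (hb : 0 < b) (hba : b ≤ a) (χ : k) (q : ℕ) :
    hh (Prod.map g id) χ (sus X a) (sus₁ X X₀ a b) q = 0 := by
  have ha : 0 < a := hb.trans_le hba
  refine le_antisymm ?_ zero_le
  rw [← hh_self (g := Prod.map g id) (X := sus X a) χ q]
  refine hh_le_of_push (H := fun s x => (x.1, (1 - s) * x.2 + s * (-a))) ?_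
    sus₁_sub le_rfl (fun x _ => ?_) (fun x hx => ?_) χ q
  · refine ⟨fun s hs x hx => ⟨hx.1, conv_le hs hx.2 (by rw [abs_neg, abs_of_pos ha])⟩,
      fun s hs x hx => ⟨hx.1, conv_le hs hx.2.1 (by rw [abs_neg, abs_of_pos ha]), ?_⟩,
      fun _ _ _ _ => rfl, fun ε hε => ?_⟩
    · rcases hx.2.2 with h | h
      · exact Or.inl h
      · right
        simp only
        nlinarith [hs.1, hs.2]
    · obtain ⟨δ, hδ, h⟩ := lin_uc (E := E) (a := a) (e := -a) (by rw [abs_neg, abs_of_pos ha]) hε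
      exact ⟨δ, hδ, fun s hs t ht x hx y hy h1 h2 => h s hs t ht x y hx.2 hy.2 h1 h2⟩
  · simp
  · refine ⟨hx.1, ?_, Or.inr ?_⟩
    · simp [abs_of_pos ha]
    · simp only; linarith

/-- **Suspension**, upper bound. -/
theorem hh_sus_le (hX₀ : X₀ ⊆ X) (hgX : Inv g X) (hgX₀ : Inv g X₀) (hb : 0 < b) (hba : b ≤ a)
    (χ : k) (p : ℕ) :
    hh (Prod.map g id) χ (sus X a) (sus₀ X X₀ a b) (p + 1) ≤ hh g χ X X₀ p := by
  have ha : 0 < a := hb.trans_le hba
  have hg₀ : Inv (Prod.map g id) (sus₀ X X₀ a b) := by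
    rintro ⟨x, t⟩
    simp only [sus₀, Prod.map, id, mem_ofPred_eq, hgX x, hgX₀ x]
  have e1 := hh_connect (k := k) (g := Prod.map g id) (X := sus X a) (A := sus₁ X X₀ a b)
    (B := sus₀ X X₀ a b) (sus₁_sub₀ hb) sus₀_sub hg₀ χ p
    (hh_sus_sus₁ hb hba χ (p + 1))
  refine e1.trans ?_
  set L : Set (E × ℝ) := {x | x ∈ sus₀ X X₀ a b ∧ 0 ≤ x.2} with hL
  have hgL : Inv (Prod.map g id) L := by
    rintro ⟨x, t⟩
    have := hg₀ (x, t)
    simp only [hL, Prod.map, id, mem_ofPred_eq] at this ⊢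
    rw [this]
  have e2 := hh_le_excision (k := k) (g := Prod.map g id) (X := sus₀ X X₀ a b)
    (A := sus₁ X X₀ a b) (L := L) (fun x hx => hx.1) hgL hb (fun x hx hx1 y hy hxy => by
      refine ⟨hy, ?_⟩
      have h1 : ¬ (x.1 ∈ X₀ ∨ x.2 ≤ -b) := fun h => hx1 ⟨hx.1, hx.2.1, h⟩
      push Not at h1
      have h2 : b ≤ x.2 := by
        rcases hx.2.2 with h | h
        · exact absurd h h1.1
        · rcases le_abs.1 h with h | h
          · exact h
          · linarith [h1.2]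
      rw [Prod.dist_eq, max_lt_iff, Real.dist_eq] at hxy
      have := (abs_lt.1 hxy.2).2
      linarith) χ p
  refine e2.trans ?_
  refine hh_le_of_retract (φ := fun x => x.1) (ψ := fun x => (x, a))
    (H := fun s x => (x.1, (1 - s) * x.2 + s * a)) ?_ ?_ ?_ inter_subset_left hX₀ (fun x _ => ?_)
    (fun x _ => ?_) χ p
  · refine ⟨fun x hx => hx.1.1, fun x hx => ?_, fun _ _ => rfl, fun ε hε => ⟨ε, hε,
      fun x _ y _ h => (le_max_left _ _).trans_lt h⟩⟩
    rcases hx.2.2.2 with h | h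
    · exact h
    · have := hx.1.2; linarith
  · refine ⟨fun x hx => ⟨⟨hx, by rw [abs_of_pos ha], Or.inr (by rw [abs_of_pos ha]; exact hba)⟩,
      ha.le⟩, fun x hx => ⟨⟨⟨hX₀ hx, by rw [abs_of_pos ha], Or.inl hx⟩, ha.le⟩,
      ⟨hX₀ hx, by rw [abs_of_pos ha], Or.inl hx⟩⟩, fun _ _ => rfl, fun ε hε => ⟨ε, hε,
      fun x _ y _ h => ?_⟩⟩
    rw [Prod.dist_eq, max_lt_iff]
    exact ⟨h, by simpa using hε⟩
  · have hm : ∀ s ∈ Icc (0 : ℝ) 1, ∀ x ∈ L, (x.1, (1 - s) * x.2 + s * a) ∈ L := by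
      intro s hs x hx
      refine ⟨⟨hx.1.1, conv_le hs hx.1.2.1 (by rw [abs_of_pos ha]), ?_⟩, ?_⟩
      · rcases hx.1.2.2 with h | h
        · exact Or.inl h
        · right
          simp only
          rw [abs_of_nonneg hx.2] at h
          rw [abs_of_nonneg (by nlinarith [hs.1, hs.2, hx.2])]
          nlinarith [hs.1, hs.2]
      · simp only; nlinarith [hs.1, hs.2, hx.2]
    refine ⟨hm, fun s hs x hx => ⟨hm s hs x hx.1, ?_⟩, fun _ _ _ _ => rfl, fun ε hε => ?_⟩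
    · have h1 := hm s hs x hx.1
      refine ⟨h1.1.1, h1.1.2.1, Or.inl ?_⟩
      rcases hx.2.2.2 with h | h
      · exact h
      · have := hx.1.2; linarith
    · obtain ⟨δ, hδ, h⟩ := lin_uc (E := E) (a := a) (e := a) (by rw [abs_of_pos ha]) hε
      exact ⟨δ, hδ, fun s hs t ht x hx y hy h1 h2 =>
        h s hs t ht x y hx.1.2.1 hy.1.2.1 h1 h2⟩
  · simp
  · simp

theorem hh_sus_zero (hb : 0 < b) (hba : b ≤ a) (χ : k) :
    hh (Prod.map g id) χ (sus X a) (sus₀ X X₀ a b) 0 = 0 := by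
  refine le_antisymm ?_ zero_le
  rw [← hh_sus_sus₁ (g := g) (X := X) (X₀ := X₀) hb hba χ 0]
  exact hh_zero_mono (sus₁_sub₀ hb) χ

/-- The cochain `1_{t > 0} c`. -/
noncomputable def upper (E k : Type) [Field k] (n : ℕ) :
    ((Fin (n + 1) → E) → k) →ₗ[k] ((Fin (n + 1) → E × ℝ) → k) := by
  classical
  exact
  { toFun := fun c x => if 0 < (x 0).2 then c (fun i => (x i).1) else 0
    map_add' := fun c c' => by
      funext x; simp only [Pi.add_apply]; split_ifs <;> simp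
    map_smul' := fun a c => by
      funext x; simp only [Pi.smul_apply, RingHom.id_apply]; split_ifs <;> simp }

omit [PseudoMetricSpace E] in
theorem upper_pos {n : ℕ} {c : (Fin (n + 1) → E) → k} {x : Fin (n + 1) → E × ℝ}
    (h : 0 < (x 0).2) : upper E k n c x = c (fun i => (x i).1) := by
  classical
  exact if_pos h

omit [PseudoMetricSpace E] in
theorem upper_neg {n : ℕ} {c : (Fin (n + 1) → E) → k} {x : Fin (n + 1) → E × ℝ}
    (h : ¬ 0 < (x 0).2) : upper E k n c x = 0 := by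
  classical
  exact if_neg h

/-- **Suspension**, lower bound. -/
theorem hh_sus_ge (hX₀ : X₀ ⊆ X) (hb : 0 < b) (hba : b ≤ a) (χ : k) (p : ℕ) :
    hh g χ X X₀ p ≤ hh (Prod.map g id) χ (sus X a) (sus₀ X X₀ a b) (p + 1) := by
  have ha : 0 < a := hb.trans_le hba
  have heqv : ∀ {c : (Fin (p + 1) → E) → k}, Eqv g χ X c →
      Eqv (Prod.map g id) χ (sus X a) (upper E k p c) := by
    intro c hc x hx
    by_cases h : 0 < (x 0).2
    · rw [upper_pos h, upper_pos (x := Prod.map g id ∘ x) h]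
      exact hc (fun i => (x i).1) fun i => (hx i).1
    · rw [upper_neg h, upper_neg (x := Prod.map g id ∘ x) h, mul_zero]
  refine qr_le_of_inj (dL (E × ℝ) k (p + 1) ∘ₗ upper E k p) ?_ ?_
  · rintro c ⟨hc, ε, hε, h1, h2⟩
    refine ⟨(heqv hc).d, min ε b, lt_min hε hb, fun x hx => ?_, fun x hx => ?_⟩
    · change d (d _) x = 0
      rw [d_d]; rfl
    · change d (upper E k p c) x = 0
      have hdist : ∀ i j, dist (x i).1 (x j).1 < ε ∧ |(x i).2 - (x j).2| < b := fun i j => by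
        have := hx.2 i j
        rw [Prod.dist_eq, max_lt_iff, Real.dist_eq] at this
        exact ⟨this.1.trans_le (min_le_left _ _), this.2.trans_le (min_le_right _ _)⟩
      by_cases hpos : ∀ i, 0 < (x i).2
      · have e1 : d (upper E k p c) x = d (pb Prod.fst c) x := by
          refine d_congr fun y hy => upper_pos ?_
          obtain ⟨j, hj⟩ := hy 0
          rw [hj]; exact hpos j
        rw [e1, d_pb]
        exact h1 _ ⟨fun i => (hx.1 i).1, fun i j => (hdist i j).1⟩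
      · push Not at hpos
        obtain ⟨j, hj⟩ := hpos
        refine d_eq_zero fun y hy => ?_
        by_cases hy0 : 0 < (y 0).2
        · obtain ⟨i, hi⟩ := hy 0
          rw [hi] at hy0
          have hX : ∀ l, (x l).1 ∈ X₀ := by
            intro l
            rcases (hx.1 l).2.2 with h | h
            · exact h
            · exfalso
              have h3 := (abs_lt.1 (hdist l i).2).1
              have h4 := (abs_lt.1 (hdist l j).2).2
              rcases le_abs.1 h with h | h <;> linarith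
          rw [upper_pos (by rw [hi]; exact hy0)]
          refine h2 _ ⟨fun l => ?_, fun l m => ?_⟩
          · obtain ⟨l', hl'⟩ := hy l
            simp only [hl']; exact hX l'
          · obtain ⟨l', hl'⟩ := hy l
            obtain ⟨m', hm'⟩ := hy m
            simp only [hl', hm']; exact (hdist l' m').1
        · exact upper_neg hy0
  · rintro c ⟨hc, ε, hε, h1, h2⟩ ⟨b', hb', ε', hε', h1', h2'⟩
    set S₂ : Set (E × ℝ) := {x | x.1 ∈ X₀ ∧ |x.2| ≤ a} with hS₂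
    have he : upper E k p c - b' ∈ Zs (Prod.map g id) χ (sus X a) S₂ p := by
      refine ⟨(heqv hc).sub hb', min ε ε', lt_min hε hε', fun x hx => ?_, fun x hx => ?_⟩
      · rw [d_sub, Pi.sub_apply, ← h1' x (hx.mono le_rfl (min_le_right _ _))]
        exact sub_self _
      · have h3 : b' x = 0 := h2' x ⟨fun i => ⟨hX₀ (hx.1 i).1, (hx.1 i).2, Or.inl (hx.1 i).1⟩,
          fun i j => (hx.2 i j).trans_le (min_le_right _ _)⟩
        rw [Pi.sub_apply, h3, sub_zero]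
        by_cases h : 0 < (x 0).2
        · rw [upper_pos h]
          exact h2 _ ⟨fun i => (hx.1 i).1, fun i j => (le_max_left _ _).trans_lt
            ((hx.2 i j).trans_le (min_le_left _ _))⟩
        · exact upper_neg h
    have hH : IsHtpy g (Prod.map g id) X X₀ (sus X a) S₂
        fun s x => (x, (1 - s) * (-a) + s * a) := by
      have h3 : ∀ s ∈ Icc (0 : ℝ) 1, |(1 - s) * (-a) + s * a| ≤ a := fun s hs =>
        conv_le hs (by rw [abs_neg, abs_of_pos ha]) (by rw [abs_of_pos ha])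
      refine ⟨fun s hs x hx => ⟨hx, h3 s hs⟩, fun s hs x hx => ⟨hx, h3 s hs⟩,
        fun _ _ _ _ => rfl, fun ε hε => ?_⟩
      refine ⟨min ε (ε / (2 * a)), by positivity, fun s hs t ht x _ y _ h4 h5 => ?_⟩
      rw [Prod.dist_eq, max_lt_iff, Real.dist_eq]
      refine ⟨h5.trans_le (min_le_left _ _), ?_⟩
      have e1 : (1 - s) * -a + s * a - ((1 - t) * -a + t * a) = (s - t) * (2 * a) := by ring
      rw [e1, abs_mul, abs_of_pos (by positivity : (0 : ℝ) < 2 * a)]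
      have := h4.trans_le (min_le_right _ _)
      rwa [lt_div_iff₀ (by positivity)] at this
    have key := homotopy hH hX₀ he
    refine Bs_congr key hε' fun x hx => ?_
    have z1 : b' ((fun x => (x, (1 - (1 : ℝ)) * (-a) + 1 * a)) ∘ x) = 0 := by
      refine h2' _ ⟨fun i => ⟨hx.1 i, by simp [abs_of_pos ha], Or.inr
        (by simp [abs_of_pos ha, hba])⟩, fun i j => ?_⟩
      simp only [Function.comp, Prod.dist_eq, dist_self]
      exact max_lt (hx.2 i j) hε'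
    have z0 : b' ((fun x => (x, (1 - (0 : ℝ)) * (-a) + 0 * a)) ∘ x) = 0 := by
      refine h2' _ ⟨fun i => ⟨hx.1 i, by simp [abs_of_pos ha], Or.inr
        (by simp [abs_of_pos ha, hba])⟩, fun i j => ?_⟩
      simp only [Function.comp, Prod.dist_eq, dist_self]
      exact max_lt (hx.2 i j) hε'
    simp only [Pi.sub_apply, pb_apply]
    rw [z1, z0, upper_pos (by simp [ha]), upper_neg (by simp [ha.le])]
    simp [Function.comp]

end Susp

section Cubes

variable {E : Type} [PseudoMetricSpace E] {k : Type} [Field k] {g : E → E}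

/-- `X × [-a, a]^ν`. -/
def boxS (X : Set E) (a : ℝ) (ν : ℕ) : Set (E × (Fin ν → ℝ)) := {x | x.1 ∈ X ∧ ∀ i, |x.2 i| ≤ a}

/-- The part of `X × [-a, a]^ν` over `X₀` or with some coordinate of absolute value `≥ b`. -/
def boxS₀ (X X₀ : Set E) (a b : ℝ) (ν : ℕ) : Set (E × (Fin ν → ℝ)) :=
  {x | x.1 ∈ X ∧ (∀ i, |x.2 i| ≤ a) ∧ (x.1 ∈ X₀ ∨ ∃ i, b ≤ |x.2 i|)}

variable {X X₀ : Set E} {a b : ℝ}

omit [PseudoMetricSpace E] in
theorem boxS₀_sub {ν : ℕ} : boxS₀ X X₀ a b ν ⊆ boxS X a ν := fun _ h => ⟨h.1, h.2.1⟩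

/-- Splitting off the first coordinate. -/
def spl {ν : ℕ} (x : E × (Fin (ν + 1) → ℝ)) : (E × (Fin ν → ℝ)) × ℝ :=
  ((x.1, vecTail x.2), vecHead x.2)

/-- Inserting the first coordinate. -/
def ins {ν : ℕ} (x : (E × (Fin ν → ℝ)) × ℝ) : E × (Fin (ν + 1) → ℝ) :=
  (x.1.1, vecCons x.2 x.1.2)

theorem dist_spl {ν : ℕ} (x y : E × (Fin (ν + 1) → ℝ)) : dist (spl x) (spl y) ≤ dist x y := by
  have h : ∀ i, dist (x.2 i) (y.2 i) ≤ dist x y := fun i =>
    (dist_le_pi_dist x.2 y.2 i).trans (le_max_right _ _)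
  refine max_le (max_le (le_max_left _ _) ?_) (h 0)
  exact (dist_pi_le_iff dist_nonneg).2 fun i => h i.succ

theorem dist_ins {ν : ℕ} (x y : (E × (Fin ν → ℝ)) × ℝ) : dist (ins x) (ins y) ≤ dist x y := by
  refine max_le ((le_max_left _ _).trans (le_max_left _ _)) ?_
  refine (dist_pi_le_iff dist_nonneg).2 fun i => ?_
  refine Fin.cases ?_ (fun i => ?_) i
  · exact le_max_right _ _
  · exact (dist_le_pi_dist x.1.2 y.1.2 i).trans ((le_max_right _ _).trans (le_max_left _ _))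

theorem isMapP_spl {ν : ℕ} : IsMapP (Prod.map g id) (Prod.map (Prod.map g id) id)
    (boxS X a (ν + 1)) (boxS₀ X X₀ a b (ν + 1)) (sus (boxS X a ν) a)
    (sus₀ (boxS X a ν) (boxS₀ X X₀ a b ν) a b) spl where
  mapsX := fun x hx => ⟨⟨hx.1, fun i => hx.2 i.succ⟩, hx.2 0⟩
  mapsA := fun x hx => by
    refine ⟨⟨hx.1, fun i => hx.2.1 i.succ⟩, hx.2.1 0, ?_⟩
    rcases hx.2.2 with h | ⟨i, hi⟩
    · exact Or.inl ⟨hx.1, fun i => hx.2.1 i.succ, Or.inl h⟩
    · revert hi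
      refine Fin.cases (fun hi => Or.inr hi) (fun i hi => Or.inl ?_) i
      exact ⟨hx.1, fun i => hx.2.1 i.succ, Or.inr ⟨i, hi⟩⟩
  eqv := fun _ _ => rfl
  uc := fun ε hε => ⟨ε, hε, fun x _ y _ h => (dist_spl x y).trans_lt h⟩

theorem isMapP_ins {ν : ℕ} : IsMapP (Prod.map (Prod.map g id) id) (Prod.map g id)
    (sus (boxS X a ν) a) (sus₀ (boxS X a ν) (boxS₀ X X₀ a b ν) a b)
    (boxS X a (ν + 1)) (boxS₀ X X₀ a b (ν + 1)) ins where
  mapsX := fun x hx => ⟨hx.1.1, fun i => by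
    refine Fin.cases ?_ (fun i => ?_) i
    · exact hx.2
    · exact hx.1.2 i⟩
  mapsA := fun x hx => by
    refine ⟨hx.1.1, fun i => ?_, ?_⟩
    · refine Fin.cases ?_ (fun i => ?_) i
      · exact hx.2.1
      · exact hx.1.2 i
    · rcases hx.2.2 with h | h
      · rcases h.2.2 with h | ⟨i, hi⟩
        · exact Or.inl h
        · exact Or.inr ⟨i.succ, hi⟩
      · exact Or.inr ⟨0, h⟩
  eqv := fun _ _ => rfl
  uc := fun ε hε => ⟨ε, hε, fun x _ y _ h => (dist_ins x y).trans_lt h⟩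

omit [PseudoMetricSpace E] in
theorem ins_spl {ν : ℕ} (x : E × (Fin (ν + 1) → ℝ)) : ins (spl x) = x := by
  unfold ins spl
  simp

omit [PseudoMetricSpace E] in
theorem spl_ins {ν : ℕ} (x : (E × (Fin ν → ℝ)) × ℝ) : spl (ins x) = x := by
  unfold ins spl
  simp

theorem hh_boxS_succ {ν : ℕ} (χ : k) (p : ℕ) :
    hh (Prod.map g id) χ (boxS X a (ν + 1)) (boxS₀ X X₀ a b (ν + 1)) p =
      hh (Prod.map (Prod.map g id) id) χ (sus (boxS X a ν) a)
        (sus₀ (boxS X a ν) (boxS₀ X X₀ a b ν) a b) p :=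
  le_antisymm
    (hh_le_of_section isMapP_spl isMapP_ins boxS₀_sub sus₀_sub (fun x _ => ins_spl x) χ p)
    (hh_le_of_section isMapP_ins isMapP_spl sus₀_sub boxS₀_sub (fun x _ => spl_ins x) χ p)

omit [PseudoMetricSpace E] in
theorem inv_boxS (hgX : Inv g X) (ν : ℕ) : Inv (Prod.map g id) (boxS X a ν) := by
  rintro ⟨x, t⟩
  simp only [boxS, Prod.map, id, mem_ofPred_eq, hgX x]

omit [PseudoMetricSpace E] in
theorem inv_boxS₀ (hgX : Inv g X) (hgX₀ : Inv g X₀) (ν : ℕ) :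
    Inv (Prod.map g id) (boxS₀ X X₀ a b ν) := by
  rintro ⟨x, t⟩
  simp only [boxS₀, Prod.map, id, mem_ofPred_eq, hgX x, hgX₀ x]

/-- The cohomology of `(X, X₀) × (cube, boundary)`, upper bound. -/
theorem hh_boxS_le (hX₀ : X₀ ⊆ X) (hgX : Inv g X) (hgX₀ : Inv g X₀) (hb : 0 < b) (hba : b ≤ a)
    (χ : k) (ν p : ℕ) :
    hh (Prod.map g id) χ (boxS X a ν) (boxS₀ X X₀ a b ν) (p + ν) ≤ hh g χ X X₀ p := by
  induction ν with
  | zero =>
    refine hh_le_of_section (φ := Prod.fst) (ψ := fun x => (x, fun i => i.elim0)) ?_ ?_ boxS₀_sub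
      hX₀ (fun x _ => Prod.ext rfl (funext fun i => i.elim0)) χ _
    · refine ⟨fun x hx => hx.1, fun x hx => ?_, fun _ _ => rfl,
        fun ε hε => ⟨ε, hε, fun x _ y _ h => (le_max_left _ _).trans_lt h⟩⟩
      rcases hx.2.2 with h | ⟨i, -⟩
      · exact h
      · exact i.elim0
    · refine ⟨fun x hx => ⟨hx, fun i => i.elim0⟩, fun x hx => ⟨hX₀ hx, fun i => i.elim0, Or.inl hx⟩,
        fun _ _ => Prod.ext rfl (funext fun i => i.elim0), fun ε hε => ⟨ε, hε,
          fun x _ y _ h => ?_⟩⟩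
      rw [Prod.dist_eq, max_lt_iff]
      exact ⟨h, by simpa using hε⟩
  | succ ν ih =>
    rw [hh_boxS_succ, ← add_assoc]
    exact (hh_sus_le boxS₀_sub (inv_boxS hgX ν) (inv_boxS₀ hgX hgX₀ ν) hb hba χ _).trans ih

/-- The cohomology of `(X, X₀) × (cube, boundary)`, lower bound. -/
theorem hh_boxS_ge (hX₀ : X₀ ⊆ X) (hb : 0 < b) (hba : b ≤ a)
    (χ : k) (ν p : ℕ) :
    hh g χ X X₀ p ≤ hh (Prod.map g id) χ (boxS X a ν) (boxS₀ X X₀ a b ν) (p + ν) := by
  induction ν with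
  | zero =>
    refine hh_le_of_section (ψ := Prod.fst) (φ := fun x => (x, fun i => i.elim0)) ?_ ?_ hX₀
      boxS₀_sub (fun x _ => rfl) χ _
    · refine ⟨fun x hx => ⟨hx, fun i => i.elim0⟩, fun x hx => ⟨hX₀ hx, fun i => i.elim0, Or.inl hx⟩,
        fun _ _ => Prod.ext rfl (funext fun i => i.elim0), fun ε hε => ⟨ε, hε,
          fun x _ y _ h => ?_⟩⟩
      rw [Prod.dist_eq, max_lt_iff]
      exact ⟨h, by simpa using hε⟩
    · refine ⟨fun x hx => hx.1, fun x hx => ?_, fun _ _ => rfl,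
        fun ε hε => ⟨ε, hε, fun x _ y _ h => (le_max_left _ _).trans_lt h⟩⟩
      rcases hx.2.2 with h | ⟨i, -⟩
      · exact h
      · exact i.elim0
  | succ ν ih =>
    rw [hh_boxS_succ, ← add_assoc]
    exact ih.trans (hh_sus_ge boxS₀_sub hb hba χ _)

/-- Degrees below the dimension of the cube. -/
theorem hh_boxS_eq_zero (hgX : Inv g X) (hgX₀ : Inv g X₀) (hb : 0 < b) (hba : b ≤ a)
    (χ : k) (ν p : ℕ) (hp : p < ν) :
    hh (Prod.map g id) χ (boxS X a ν) (boxS₀ X X₀ a b ν) p = 0 := by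
  induction ν generalizing p with
  | zero => omega
  | succ ν ih =>
    rw [hh_boxS_succ]
    cases p with
    | zero => exact hh_sus_zero hb hba χ
    | succ p =>
      refine le_antisymm ?_ zero_le
      exact (hh_sus_le boxS₀_sub (inv_boxS hgX ν) (inv_boxS₀ hgX hgX₀ ν) hb hba χ _).trans
        (ih p (by omega)).le

end Cubes

section Point

variable {k : Type} [Field k]

theorem hh_point_zero (χ : k) : hh id χ (univ : Set Unit) ∅ 0 ≤ 1 := by
  refine qr_le_one ⟨⟨fun c => c fun _ => (), fun _ _ => rfl⟩, fun _ _ => rfl⟩ ?_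
  rintro c - h0
  refine ⟨0, fun x _ => by simp, 1, one_pos, fun x _ => ?_, fun _ _ => rfl⟩
  rw [d_zero]
  exact (congrArg c (funext fun _ => rfl)).trans h0

theorem hh_point_succ (χ : k) (p : ℕ) : hh id χ (univ : Set Unit) ∅ (p + 1) = 0 := by
  rw [hh_eq_zero_iff]
  rintro c ⟨hc, ε, hε, h1, h2⟩
  refine ⟨fun x => c (vecCons () x), fun x _ => ?_, 1, one_pos, fun x _ => ?_, fun x hx => ?_⟩
  · exact hc (vecCons () x) fun _ => trivial
  · have h3 : d c (vecCons () x) = 0 := h1 _ ⟨fun _ => trivial, fun i j => by simpa using hε⟩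
    rw [d_cons, sub_eq_zero] at h3
    exact h3
  · exact absurd (hx.1 0) (notMem_empty _)

/-- The cohomology of the cube relative to its boundary. -/
theorem hh_cube_le (l : ℕ) {a b : ℝ} (hb : 0 < b) (hba : b ≤ a) (χ : k) (j : ℕ) :
    hh id χ (cube l a) (cubeOut l a b) j ≤ if j = l then 1 else 0 := by
  have e1 : hh id χ (cube l a) (cubeOut l a b) j ≤
      hh (Prod.map id id) χ (boxS (univ : Set Unit) a l) (boxS₀ univ ∅ a b l) j := by
    refine hh_le_of_section (φ := fun u => ((), u)) (ψ := Prod.snd) ?_ ?_ (fun u hu => hu.1)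
      boxS₀_sub (fun _ _ => rfl) χ j
    · refine ⟨fun u hu => ⟨trivial, hu⟩, fun u hu => ⟨trivial, hu.1, Or.inr hu.2⟩,
        fun _ _ => rfl, fun ε hε => ⟨ε, hε, fun x _ y _ h => ?_⟩⟩
      rw [Prod.dist_eq, max_lt_iff]
      exact ⟨by simpa using hε, h⟩
    · refine ⟨fun u hu => hu.2, fun u hu => ⟨hu.2.1, ?_⟩,
        fun _ _ => rfl, fun ε hε => ⟨ε, hε, fun x _ y _ h => (le_max_right _ _).trans_lt h⟩⟩
      rcases hu.2.2 with h | h
      · exact absurd h (notMem_empty _)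
      · exact h
  refine e1.trans ?_
  have hi : Inv id (univ : Set Unit) := fun _ => Iff.rfl
  have hi' : Inv id (∅ : Set Unit) := fun _ => Iff.rfl
  rcases lt_or_ge j l with hj | hj
  · rw [hh_boxS_eq_zero hi hi' hb hba χ l j hj]
    exact zero_le
  · obtain ⟨p, rfl⟩ := Nat.exists_eq_add_of_le' hj
    refine (hh_boxS_le (empty_subset _) hi hi' hb hba χ l p).trans ?_
    cases p with
    | zero => simpa using hh_point_zero χ
    | succ p => rw [hh_point_succ]; exact zero_le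

end Point

end Vale.Agent.P265.AS
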