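import Vale.Agent.P265.H336.Morse
import Vale.Agent.P265.H256.Box
import Vale.Agent.P265.H933.Move
import Vale.Agent.P265.H690.Bottom
import Vale.Agent.P265.H934.Assembly

/-! The Morse inequality for functions quadratic at infinity. -/

open Set Manifold
open scoped ContDiff Topology

namespace Vale.Agent.P265.AS

theorem morseIneq : MorseIneq := by
  refine H934.morseIneq_of absMorse ?_ ?_ ?_
  · intro V M N Z _ _ _ _ _ _ _ n C K m₀ z₀ hz F p q T r₀ hr₀ hT
    exact H256.exists_localBox C hz F T hr₀ hT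
  · intro V M N Z _ _ _ _ _ _ _ _ _ _ _ _ n C K F hF x₀ hz hx
    exact H933.exists_descent_noncrit C hF hz hx
  · intro V M N Z k _ _ _ _ _ _ _ _ _ n C F p q T R₁ a' a b lo hi hB χ j
    exact (hh_le_cylinder C.g (hB.R₁_pos.trans hB.R₁_lt_a') hB.a'_lt.le χ p j).trans
      (H690.hh_box_le hB C.g C.π χ (j + p))

end Vale.Agent.P265.AS
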