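import Vale.Agent.P265.H336.Crit

/-! The abstract Morse inequality. -/

open Set Matrix Topology

namespace Vale.Agent.P265.AS

theorem LocalBox.value_zero {E : Type} [TopologicalSpace E] {g : E → E} {n : ℕ} {P : Set E}
    {F : E → ℝ} {p q : ℕ} {c r : ℝ} {θ : (Fin p → ℝ) × (Fin q → ℝ) → E}
    {κ : E → (Fin p → ℝ) × (Fin q → ℝ)} {σ : E → ℕ} {L : Set E}
    (h : LocalBox g n P F p q c r θ κ σ L) {x : E} (hx : x ∈ L ∧ κ x = 0) : F x = c := by
  rw [h.value x hx.1, hx.2]
  simp

/-- The abstract Morse inequality, given the cohomology of cubes. -/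
theorem absMorse_of_cube (hcube : ∀ {k : Type} [Field k] (l : ℕ) {a b : ℝ}, 0 < b → b ≤ a → ∀ j,
      hh id (1 : k) (cube l a) (cubeOut l a b) j ≤ if j = l then 1 else 0) : AbsMorse := by
  intro E _ g n P F m c r p q θ κ σ L lo hi hn hP hgP hg hgn hF hFg hinj hbox hlo hhi hdesc k _ χ
    hχ j
  have hregular : ∀ a b : ℝ, lo ≤ a → (∀ i, c i ∉ Icc a b) →
      hh g χ (Sub' P F b) (Sub' P F a) j = 0 := by
    intro a b ha hab
    refine hh_regular hP hgP hF hFg (fun x hx h1 h2 => hdesc x hx (ha.trans h1) fun i hi => ?_) χ j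
    have := (hbox i).value_zero hi
    exact hab i ⟨this ▸ h1, this ▸ h2⟩
  have key : ∀ N : ℕ, ∀ t : ℝ, lo ≤ t → (∀ i, c i ≠ t) →
      (Finset.univ.filter fun i => c i < t).card = N →
      hh g χ (Sub' P F t) (Sub' P F lo) j ≤
        ((Finset.univ.filter fun i => c i < t ∧ p i = j).card : Cardinal) := by
    intro N
    induction N using Nat.strong_induction_on with
    | _ N ih =>
    intro t hlt hct hN
    rcases (Finset.univ.filter fun i => c i < t).eq_empty_or_nonempty with he | hne
    · rw [hregular lo t le_rfl fun i hi => ?_]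
      · exact zero_le
      · have h1 : i ∈ (Finset.univ.filter fun i => c i < t) :=
          Finset.mem_filter.2 ⟨Finset.mem_univ _, lt_of_le_of_ne hi.2 (hct i)⟩
        rw [he] at h1
        exact absurd h1 (Finset.notMem_empty _)
    · obtain ⟨i₀, hi₀, hmax⟩ := Finset.exists_max_image _ c hne
      have hi₀t : c i₀ < t := (Finset.mem_filter.1 hi₀).2
      have hmax' : ∀ i, c i < t → c i ≤ c i₀ := fun i hi =>
        hmax i (Finset.mem_filter.2 ⟨Finset.mem_univ _, hi⟩)
      obtain ⟨ε₀, hε₀, hε₀lo, hε₀t, hε₀i⟩ : ∃ ε₀ > 0, ε₀ < c i₀ - lo ∧ ε₀ < t - c i₀ ∧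
          ∀ i, i ≠ i₀ → ε₀ < |c i - c i₀| := by
        have h1 : ∀ᶠ ε in 𝓝[>] (0 : ℝ), ε < c i₀ - lo :=
          nhdsWithin_le_nhds (Iio_mem_nhds (by linarith [hlo i₀]))
        have h2 : ∀ᶠ ε in 𝓝[>] (0 : ℝ), ε < t - c i₀ :=
          nhdsWithin_le_nhds (Iio_mem_nhds (by linarith))
        have h3 : ∀ᶠ ε in 𝓝[>] (0 : ℝ), ∀ i, i ≠ i₀ → ε < |c i - c i₀| := by
          rw [Filter.eventually_all]
          intro i
          rw [Filter.eventually_imp_distrib_left]
          intro hi
          refine nhdsWithin_le_nhds (Iio_mem_nhds (abs_pos.2 (sub_ne_zero.2 ?_)))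
          exact fun h => hi (hinj h)
        obtain ⟨ε, ⟨⟨h1, h2⟩, h3⟩, h4⟩ :=
          (((h1.and h2).and h3).and (self_mem_nhdsWithin (s := Ioi (0 : ℝ)))).exists
        exact ⟨ε, h4, h1, h2, h3⟩
      obtain ⟨ε₁, hε₁, hcrit⟩ := hh_critical hP hgP hg hgn hF hFg (hbox i₀) hε₀ (by
        intro x hx h1 h2 h3
        refine hdesc x hx (by linarith) fun i hi => ?_
        rcases eq_or_ne i i₀ with rfl | hne
        · exact h3 hi
        · have h4 := (hbox i).value_zero hi
          have h5 := hε₀i i hne
          rw [← h4] at h5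
          have h6 : |F x - c i₀| ≤ ε₀ := abs_le.2 ⟨by linarith, by linarith⟩
          linarith) (k := k) (fun l a b h1 h2 j => hcube l h1 h2 j)
      set ε := min ε₀ ε₁ with hεdef
      have hε : 0 < ε := lt_min hε₀ hε₁
      have hεε₀ : ε ≤ ε₀ := min_le_left _ _
      have hεε₁ : ε ≤ ε₁ := min_le_right _ _
      have e1 := hcrit ε hε hεε₁ hχ j
      have e2 : hh g χ (Sub' P F t) (Sub' P F (c i₀ + ε)) j = 0 := by
        refine hregular _ _ (by linarith [hlo i₀]) fun i hi => ?_
        have h1 := hmax' i (lt_of_le_of_ne hi.2 (hct i))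
        linarith [hi.1]
      have e3 := ih _ ?_ (c i₀ - ε) (by linarith) (fun i hi => ?_) rfl
      · have h1 := hh_triple (g := g) (X := Sub' P F t) (A := Sub' P F lo)
          (B := Sub' P F (c i₀ - ε)) (Sub'_mono (by linarith)) (Sub'_mono (by linarith))
          (Sub'_inv hgP hFg _) χ j
        have h2 := hh_triple (g := g) (X := Sub' P F t) (A := Sub' P F (c i₀ - ε))
          (B := Sub' P F (c i₀ + ε)) (Sub'_mono (by linarith)) (Sub'_mono (by linarith))
          (Sub'_inv hgP hFg _) χ j
        rw [e2, add_zero] at h2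
        have h3 := h1.trans (add_le_add e3 (h2.trans e1))
        refine h3.trans ?_
        have hcard : (Finset.univ.filter fun i => c i < c i₀ - ε ∧ p i = j).card +
            (if j = p i₀ then 1 else 0) ≤
            (Finset.univ.filter fun i => c i < t ∧ p i = j).card := by
          split_ifs with hj
          · rw [← Finset.card_insert_of_notMem (a := i₀)]
            · refine Finset.card_le_card fun i hi => ?_
              rcases Finset.mem_insert.1 hi with rfl | hi
              · exact Finset.mem_filter.2 ⟨Finset.mem_univ _, hi₀t, hj.symm⟩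
              · obtain ⟨-, h1, h2⟩ := Finset.mem_filter.1 hi
                exact Finset.mem_filter.2 ⟨Finset.mem_univ _, by linarith, h2⟩
            · intro hi
              have := (Finset.mem_filter.1 hi).2.1
              linarith
          · rw [add_zero]
            refine Finset.card_le_card fun i hi => ?_
            obtain ⟨-, h1, h2⟩ := Finset.mem_filter.1 hi
            exact Finset.mem_filter.2 ⟨Finset.mem_univ _, by linarith, h2⟩
        have hcast : (((Finset.univ.filter fun i => c i < c i₀ - ε ∧ p i = j).card : Cardinal) +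
            (if j = p i₀ then 1 else 0)) =
            (((Finset.univ.filter fun i => c i < c i₀ - ε ∧ p i = j).card +
            (if j = p i₀ then 1 else 0) : ℕ) : Cardinal) := by
          split_ifs <;> simp
        rw [hcast]
        exact_mod_cast hcard
      · rw [← hN]
        refine Finset.card_lt_card (Finset.ssubset_iff_subset_ne.2 ⟨fun i hi => ?_, fun h => ?_⟩)
        · have := (Finset.mem_filter.1 hi).2
          exact Finset.mem_filter.2 ⟨Finset.mem_univ _, by linarith⟩
        · rw [← h] at hi₀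
          have := (Finset.mem_filter.1 hi₀).2
          linarith
      · rcases eq_or_ne i i₀ with rfl | hne
        · linarith
        · have h5 := hε₀i i hne
          rw [hi, sub_sub_cancel_left, abs_neg, abs_of_pos hε] at h5
          linarith
  -- conclusion
  obtain ⟨t, ht1, ht2⟩ : ∃ t : ℝ, max lo hi ≤ t ∧ ∀ i, c i < t := by
    have h1 : ∀ᶠ t in Filter.atTop, max lo hi ≤ t := Filter.eventually_ge_atTop _
    have h2 : ∀ᶠ t in Filter.atTop, ∀ i, c i < t := by
      rw [Filter.eventually_all]
      exact fun i => Filter.eventually_gt_atTop _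
    exact (h1.and h2).exists
  have hXt : Sub' P F t = P := by
    ext x
    exact ⟨fun hx => hx.1, fun hx => ⟨hx, (hhi x hx).trans ((le_max_right _ _).trans ht1)⟩⟩
  have h1 := key _ t ((le_max_left _ _).trans ht1) (fun i => (ht2 i).ne) rfl
  rw [hXt] at h1
  refine h1.trans ?_
  have : (Finset.univ.filter fun i => c i < t ∧ p i = j).card ≤
      (Finset.univ.filter fun i => p i = j).card := by
    refine Finset.card_le_card fun i hi => ?_
    obtain ⟨-, h1, h2⟩ := Finset.mem_filter.1 hi
    exact Finset.mem_filter.2 ⟨Finset.mem_univ _, h2⟩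
  exact_mod_cast this

end Vale.Agent.P265.AS
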