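import Vale.Agent.P265.H336.AS

/-! Equivariant Alexander-Spanier cohomology of pairs of subsets of a metric space: ranks. -/

open Set Matrix

namespace Vale.Agent.P265.AS

/-! ### Ranks of subquotients -/

section LinearAlgebra

variable {k : Type} [Field k] {F F₁ F₂ F₃ : Type} [AddCommGroup F] [Module k F]
  [AddCommGroup F₁] [Module k F₁] [AddCommGroup F₂] [Module k F₂] [AddCommGroup F₃] [Module k F₃]

/-- The rank of `Z / (Z ∩ B)`. -/
noncomputable def qr (Z B : Submodule k F) : Cardinal := Module.rank k (Z ⧸ B.comap Z.subtype)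

theorem qr_le_of_inj {Z₁ B₁ : Submodule k F₁} {Z₂ B₂ : Submodule k F₂} (T : F₁ →ₗ[k] F₂)
    (hT : ∀ c ∈ Z₁, T c ∈ Z₂) (hinj : ∀ c ∈ Z₁, T c ∈ B₂ → c ∈ B₁) : qr Z₁ B₁ ≤ qr Z₂ B₂ := by
  let T' : Z₁ →ₗ[k] Z₂ := T.restrict hT
  let φ : Z₁ →ₗ[k] (Z₂ ⧸ B₂.comap Z₂.subtype) := (B₂.comap Z₂.subtype).mkQ ∘ₗ T'
  have hk : LinearMap.ker φ ≤ B₁.comap Z₁.subtype := by
    intro c hc
    rw [LinearMap.mem_ker, LinearMap.comp_apply, Submodule.mkQ_apply,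
      Submodule.Quotient.mk_eq_zero] at hc
    exact hinj c c.2 hc
  calc qr Z₁ B₁ ≤ Module.rank k (Z₁ ⧸ LinearMap.ker φ) :=
        LinearMap.rank_le_of_surjective (Submodule.factor hk) (Submodule.factor_surjective hk)
    _ = Module.rank k (LinearMap.range φ) := φ.quotKerEquivRange.rank_eq
    _ ≤ qr Z₂ B₂ := Submodule.rank_le _

theorem qr_le_of_surj {Z₁ B₁ : Submodule k F₁} {Z₂ B₂ : Submodule k F₂} (S : F₂ →ₗ[k] F₁)
    (hS : ∀ c ∈ Z₂, S c ∈ Z₁) (hB : ∀ c ∈ Z₂, c ∈ B₂ → S c ∈ B₁)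
    (hsurj : ∀ c ∈ Z₁, ∃ z ∈ Z₂, c - S z ∈ B₁) : qr Z₁ B₁ ≤ qr Z₂ B₂ := by
  let S' : Z₂ →ₗ[k] Z₁ := S.restrict hS
  have hk : B₂.comap Z₂.subtype ≤ (B₁.comap Z₁.subtype).comap S' := fun c hc => hB c c.2 hc
  refine LinearMap.rank_le_of_surjective (Submodule.mapQ _ _ S' hk) ?_
  intro c
  obtain ⟨c, rfl⟩ := Submodule.mkQ_surjective _ c
  obtain ⟨z, hz, hzB⟩ := hsurj c c.2
  refine ⟨Submodule.Quotient.mk ⟨z, hz⟩, ?_⟩
  rw [Submodule.mapQ_apply, eq_comm, Submodule.mkQ_apply, Submodule.Quotient.eq]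
  exact hzB

theorem qr_le_add {Z B Z₁ B₁ Z₂ B₂ : Submodule k F} (h1 : Z ≤ Z₁) (h2 : B ≤ B₁) (hZ : Z₂ ≤ Z)
    (hB : Z₂ ⊓ B₂ ≤ B)
    (hsurj : ∀ c ∈ Z, c ∈ B₁ → ∃ z ∈ Z₂, c - z ∈ B) : qr Z B ≤ qr Z₁ B₁ + qr Z₂ B₂ := by
  have e1 : qr Z B₁ ≤ qr Z₁ B₁ := qr_le_of_inj LinearMap.id (fun c hc => h1 hc) fun c _ h => h
  have e2 : qr (Z ⊓ B₁) B ≤ qr Z₂ B₂ := by
    let φ : (Z ⊓ B₁ : Submodule k F) →ₗ[k] _ := (B.comap (Z ⊓ B₁).subtype).mkQ
    -- compare through the submodule `Z₂ ⊓ B₁`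
    have e3 : qr (Z ⊓ B₁) B ≤ qr (Z₂ ⊓ B₁) B₂ := by
      refine qr_le_of_surj LinearMap.id (fun c hc => ⟨hZ hc.1, hc.2⟩)
        (fun c hc hcB => hB ⟨hc.1, hcB⟩) ?_
      intro c hc
      obtain ⟨z, hz, hcz⟩ := hsurj c hc.1 hc.2
      refine ⟨z, ⟨hz, ?_⟩, hcz⟩
      have : z = c - (c - z) := by abel
      rw [this]
      exact B₁.sub_mem hc.2 (h2 hcz)
    exact e3.trans (qr_le_of_inj LinearMap.id (fun c hc => hc.1) fun c _ h => h)
  refine le_trans ?_ (add_le_add e1 le_rfl)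
  -- rank-nullity for `Z / B → Z / B₁`
  have hle : B.comap Z.subtype ≤ B₁.comap Z.subtype := fun c hc => h2 hc
  have h3 := LinearMap.rank_range_add_rank_ker (Submodule.factor hle)
  have h4 : LinearMap.range (Submodule.factor hle) = ⊤ :=
    LinearMap.range_eq_top.2 (Submodule.factor_surjective hle)
  rw [h4, rank_top] at h3
  unfold qr
  rw [← h3]
  refine add_le_add le_rfl ?_
  -- surjection `(Z ⊓ B₁) / B → ker`
  let ψ : (Z ⊓ B₁ : Submodule k F) →ₗ[k] LinearMap.ker (Submodule.factor hle) :=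
    LinearMap.codRestrict _ ((B.comap Z.subtype).mkQ ∘ₗ Submodule.inclusion inf_le_left) (by
      rintro ⟨c, hc⟩
      rw [LinearMap.mem_ker, LinearMap.comp_apply, Submodule.factor_mk, Submodule.mkQ_apply,
        Submodule.Quotient.mk_eq_zero]
      exact hc.2)
  have hψ : Function.Surjective ψ := by
    rintro ⟨c, hc⟩
    obtain ⟨c, rfl⟩ := Submodule.mkQ_surjective _ c
    have hc' := hc
    rw [LinearMap.mem_ker, Submodule.factor_mk, Submodule.mkQ_apply,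
      Submodule.Quotient.mk_eq_zero] at hc'
    exact ⟨⟨c, c.2, hc'⟩, rfl⟩
  have hψk : B.comap (Z ⊓ B₁).subtype ≤ LinearMap.ker ψ := by
    rintro ⟨c, hc⟩ hcB
    rw [LinearMap.mem_ker]
    ext
    simp only [ψ, LinearMap.codRestrict_apply, LinearMap.comp_apply, ZeroMemClass.coe_zero]
    rw [Submodule.mkQ_apply, Submodule.Quotient.mk_eq_zero]
    exact hcB
  refine le_trans (LinearMap.rank_le_of_surjective
    ((B.comap (Z ⊓ B₁).subtype).liftQ ψ hψk) ?_) e2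
  intro c
  obtain ⟨c, rfl⟩ := hψ c
  exact ⟨(B.comap (Z ⊓ B₁).subtype).mkQ c, by rw [← LinearMap.comp_apply, Submodule.liftQ_mkQ]⟩

theorem qr_eq_zero_iff {Z B : Submodule k F} : qr Z B = 0 ↔ Z ≤ B := by
  unfold qr
  rw [rank_zero_iff, Submodule.Quotient.subsingleton_iff, Submodule.comap_subtype_eq_top]

theorem qr_le_one {Z B : Submodule k F} (T : F →ₗ[k] k) (hinj : ∀ c ∈ Z, T c = 0 → c ∈ B) :
    qr Z B ≤ 1 := by
  have h : qr Z B ≤ qr (⊤ : Submodule k k) ⊥ :=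
    qr_le_of_inj T (fun _ _ => trivial) fun c hc h => hinj c hc (by simpa using h)
  refine h.trans ?_
  calc qr (⊤ : Submodule k k) ⊥ ≤ Module.rank k (⊤ : Submodule k k) :=
        LinearMap.rank_le_of_surjective (Submodule.mkQ _) (Submodule.mkQ_surjective _)
    _ = Module.rank k k := rank_top k k
    _ ≤ 1 := (CommSemiring.rank_self k).le

end LinearAlgebra

/-! ### Small tuples, equivariance, cocycles, coboundaries -/

section Defs

variable {E E' E'' : Type} [PseudoMetricSpace E] [PseudoMetricSpace E'] [PseudoMetricSpace E'']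
  {k : Type} [Field k]

/-- The entries of `x` lie in `X` and have mutual distances `< ε`. -/
def Sm (X : Set E) (ε : ℝ) {n : ℕ} (x : Fin n → E) : Prop :=
  (∀ i, x i ∈ X) ∧ ∀ i j, dist (x i) (x j) < ε

/-- `χ`-equivariance under `g` on the tuples of `X`. -/
def Eqv (g : E → E) (χ : k) (X : Set E) {n : ℕ} (c : (Fin n → E) → k) : Prop :=
  ∀ x, (∀ i, x i ∈ X) → c (g ∘ x) = χ * c x

/-- `X` is invariant under `g`. -/
def Inv (g : E → E) (X : Set E) : Prop := ∀ x, g x ∈ X ↔ x ∈ X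

theorem Sm.mono {X Y : Set E} {ε δ : ℝ} {n : ℕ} {x : Fin n → E} (h : Sm X ε x) (hXY : X ⊆ Y)
    (hε : ε ≤ δ) : Sm Y δ x := ⟨fun i => hXY (h.1 i), fun i j => (h.2 i j).trans_le hε⟩

theorem Sm.sub {X : Set E} {ε : ℝ} {m n : ℕ} {x : Fin n → E} {y : Fin m → E} (h : Sm X ε x)
    (hy : Sub y x) : Sm X ε y := by
  refine ⟨fun i => ?_, fun i j => ?_⟩
  · obtain ⟨j, hj⟩ := hy i
    exact hj ▸ h.1 j
  · obtain ⟨i', hi⟩ := hy i
    obtain ⟨j', hj⟩ := hy j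
    rw [hi, hj]
    exact h.2 i' j'

omit [PseudoMetricSpace E] in
theorem sub_mem {X : Set E} {m n : ℕ} {x : Fin n → E} {y : Fin m → E} (h : ∀ i, x i ∈ X)
    (hy : Sub y x) : ∀ i, y i ∈ X := fun i => by
  obtain ⟨j, hj⟩ := hy i
  exact hj ▸ h j

omit [PseudoMetricSpace E] in
theorem Eqv.mono {g : E → E} {χ : k} {X Y : Set E} {n : ℕ} {c : (Fin n → E) → k}
    (h : Eqv g χ Y c) (hXY : X ⊆ Y) : Eqv g χ X c := fun x hx => h x fun i => hXY (hx i)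

omit [PseudoMetricSpace E] in
theorem Eqv.d {g : E → E} {χ : k} {X : Set E} {n : ℕ} {c : (Fin n → E) → k}
    (h : Eqv g χ X c) : Eqv g χ X (d c) := by
  intro x hx
  have h1 : AS.d c (g ∘ x) = AS.d (pb g c) x := by rw [d_pb]; rfl
  have h2 : AS.d (pb g c) x = AS.d (χ • c) x := by
    apply d_congr
    intro y hy
    exact h y (sub_mem hx hy)
  rw [h1, h2, d_smul]; rfl

/-- Relative cocycles of degree `p` of the pair `(X, A)`. -/
def Zs (g : E → E) (χ : k) (X A : Set E) (p : ℕ) : Submodule k ((Fin (p + 1) → E) → k) where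
  carrier := {c | Eqv g χ X c ∧ ∃ ε > 0, (∀ x, Sm X ε x → d c x = 0) ∧ ∀ x, Sm A ε x → c x = 0}
  zero_mem' := ⟨fun x _ => by simp, 1, one_pos, fun x _ => by rw [d_zero]; rfl, fun x _ => rfl⟩
  add_mem' := by
    rintro c c' ⟨h, ε, hε, h1, h2⟩ ⟨h', ε', hε', h1', h2'⟩
    refine ⟨fun x hx => ?_, min ε ε', lt_min hε hε', fun x hx => ?_, fun x hx => ?_⟩
    · rw [Pi.add_apply, Pi.add_apply, h x hx, h' x hx]; ring
    · rw [d_add, Pi.add_apply, h1 x (hx.mono le_rfl (min_le_left _ _)),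
        h1' x (hx.mono le_rfl (min_le_right _ _)), add_zero]
    · rw [Pi.add_apply, h2 x (hx.mono le_rfl (min_le_left _ _)),
        h2' x (hx.mono le_rfl (min_le_right _ _)), add_zero]
  smul_mem' := by
    rintro a c ⟨h, ε, hε, h1, h2⟩
    refine ⟨fun x hx => ?_, ε, hε, fun x hx => ?_, fun x hx => ?_⟩
    · rw [Pi.smul_apply, Pi.smul_apply, h x hx, smul_eq_mul, smul_eq_mul]; ring
    · rw [d_smul, Pi.smul_apply, h1 x hx, smul_zero]
    · rw [Pi.smul_apply, h2 x hx, smul_zero]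

/-- Relative coboundaries of degree `p` of the pair `(X, A)`. -/
def Bs (g : E → E) (χ : k) (X A : Set E) (p : ℕ) : Submodule k ((Fin (p + 1) → E) → k) where
  carrier := {c | ∃ b : (Fin p → E) → k, Eqv g χ X b ∧ ∃ ε > 0,
    (∀ x, Sm X ε x → c x = d b x) ∧ ∀ x, Sm A ε x → b x = 0}
  zero_mem' := ⟨0, fun x _ => by simp, 1, one_pos, fun x _ => by rw [d_zero], fun x _ => rfl⟩
  add_mem' := by
    rintro c c' ⟨b, h, ε, hε, h1, h2⟩ ⟨b', h', ε', hε', h1', h2'⟩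
    refine ⟨b + b', fun x hx => ?_, min ε ε', lt_min hε hε', fun x hx => ?_, fun x hx => ?_⟩
    · rw [Pi.add_apply, Pi.add_apply, h x hx, h' x hx]; ring
    · rw [d_add, Pi.add_apply, Pi.add_apply, h1 x (hx.mono le_rfl (min_le_left _ _)),
        h1' x (hx.mono le_rfl (min_le_right _ _))]
    · rw [Pi.add_apply, h2 x (hx.mono le_rfl (min_le_left _ _)),
        h2' x (hx.mono le_rfl (min_le_right _ _)), add_zero]
  smul_mem' := by
    rintro a c ⟨b, h, ε, hε, h1, h2⟩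
    refine ⟨a • b, fun x hx => ?_, ε, hε, fun x hx => ?_, fun x hx => ?_⟩
    · rw [Pi.smul_apply, Pi.smul_apply, h x hx, smul_eq_mul, smul_eq_mul]; ring
    · rw [d_smul, Pi.smul_apply, Pi.smul_apply, h1 x hx]
    · rw [Pi.smul_apply, h2 x hx, smul_zero]

theorem mem_Zs {g : E → E} {χ : k} {X A : Set E} {p : ℕ} {c : (Fin (p + 1) → E) → k} :
    c ∈ Zs g χ X A p ↔ Eqv g χ X c ∧ ∃ ε > 0, (∀ x, Sm X ε x → d c x = 0) ∧
      ∀ x, Sm A ε x → c x = 0 := Iff.rfl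

theorem mem_Bs {g : E → E} {χ : k} {X A : Set E} {p : ℕ} {c : (Fin (p + 1) → E) → k} :
    c ∈ Bs g χ X A p ↔ ∃ b : (Fin p → E) → k, Eqv g χ X b ∧ ∃ ε > 0,
      (∀ x, Sm X ε x → c x = d b x) ∧ ∀ x, Sm A ε x → b x = 0 := Iff.rfl

/-- The rank of the `χ`-equivariant cohomology of the pair `(X, A)` in degree `p`. -/
noncomputable def hh (g : E → E) (χ : k) (X A : Set E) (p : ℕ) : Cardinal :=
  qr (Zs g χ X A p) (Bs g χ X A p)

theorem hh_eq_zero_iff {g : E → E} {χ : k} {X A : Set E} {p : ℕ} :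
    hh g χ X A p = 0 ↔ Zs g χ X A p ≤ Bs g χ X A p := qr_eq_zero_iff

/-- Only the values on small tuples matter. -/
theorem Bs_congr {g : E → E} {χ : k} {X A : Set E} {p : ℕ} {c c' : (Fin (p + 1) → E) → k}
    (h : c ∈ Bs g χ X A p) {δ : ℝ} (hδ : 0 < δ) (hc : ∀ x, Sm X δ x → c' x = c x) :
    c' ∈ Bs g χ X A p := by
  obtain ⟨b, hb, ε, hε, h1, h2⟩ := h
  refine ⟨b, hb, min ε δ, lt_min hε hδ, fun x hx => ?_,
    fun x hx => h2 x (hx.mono le_rfl (min_le_left _ _))⟩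
  rw [hc x (hx.mono le_rfl (min_le_right _ _)), h1 x (hx.mono le_rfl (min_le_left _ _))]

theorem Bs_le_Zs {g : E → E} {χ : k} {X A : Set E} (hA : A ⊆ X) {p : ℕ}
    {c : (Fin (p + 1) → E) → k} (hc : Eqv g χ X c) (h : c ∈ Bs g χ X A p) :
    c ∈ Zs g χ X A p := by
  obtain ⟨b, hb, ε, hε, h1, h2⟩ := h
  refine ⟨hc, ε, hε, fun x hx => ?_, fun x hx => ?_⟩
  · rw [d_congr (c' := d b) fun y hy => h1 y (hx.sub hy), d_d]; rfl
  · rw [h1 x (hx.mono hA le_rfl)]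
    exact d_eq_zero fun y hy => h2 y (hx.sub hy)

theorem d_mem_Bs {g : E → E} {χ : k} {X A : Set E} {p : ℕ} {b : (Fin p → E) → k}
    (hb : Eqv g χ X b) {ε : ℝ} (hε : 0 < ε) (h : ∀ x, Sm A ε x → b x = 0) :
    d b ∈ Bs g χ X A p := ⟨b, hb, ε, hε, fun _ _ => rfl, h⟩

theorem Bs_mono {g : E → E} {χ : k} {X A B : Set E} (hAB : A ⊆ B) {p : ℕ} :
    Bs g χ X B p ≤ Bs g χ X A p := by
  rintro c ⟨b, hb, ε, hε, h1, h2⟩
  exact ⟨b, hb, ε, hε, h1, fun x hx => h2 x (hx.mono hAB le_rfl)⟩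

theorem Bs_restrict {g : E → E} {χ : k} {X Y A B : Set E} (hYX : Y ⊆ X) (hBA : B ⊆ A) {p : ℕ} :
    Bs g χ X A p ≤ Bs g χ Y B p := by
  rintro c ⟨b, hb, ε, hε, h1, h2⟩
  exact ⟨b, hb.mono hYX, ε, hε, fun x hx => h1 x (hx.mono hYX le_rfl),
    fun x hx => h2 x (hx.mono hBA le_rfl)⟩

theorem Zs_restrict {g : E → E} {χ : k} {X Y A B : Set E} (hYX : Y ⊆ X) (hBA : B ⊆ A) {p : ℕ} :
    Zs g χ X A p ≤ Zs g χ Y B p := by
  rintro c ⟨hc, ε, hε, h1, h2⟩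
  exact ⟨hc.mono hYX, ε, hε, fun x hx => h1 x (hx.mono hYX le_rfl),
    fun x hx => h2 x (hx.mono hBA le_rfl)⟩

end Defs

end Vale.Agent.P265.AS
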