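import Vale.Agent.P265.H336.Local
import Vale.Agent.P265.H336.Ball

/-! Passing a critical level. -/

open Set Matrix Topology

namespace Vale.Agent.P265.AS

section Top

theorem isCompact_inter_pre {E F : Type} [TopologicalSpace E] [TopologicalSpace F] {K : Set E}
    {f : E → F} {C : Set F} (hK : IsCompact K) (hf : ContinuousOn f K) (hC : IsClosed C) :
    IsCompact {x ∈ K | f x ∈ C} := by
  obtain ⟨u, hu, h⟩ := continuousOn_iff_isClosed.1 hf C hC
  have : {x ∈ K | f x ∈ C} = K ∩ u := by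
    rw [inter_comm K u, ← h, inter_comm]; rfl
  rw [this]
  exact hK.inter_right hu

/-- The largest open set whose trace on `P` lies in `W`. -/
def opn {E : Type} [TopologicalSpace E] (P W : Set E) : Set E := interior {y | y ∈ P → y ∈ W}

theorem isOpen_opn {E : Type} [TopologicalSpace E] (P W : Set E) : IsOpen (opn P W) :=
  isOpen_interior

theorem mem_opn {E : Type} [TopologicalSpace E] {P W : Set E} {x : E} (h : W ∈ 𝓝[P] x) :
    x ∈ opn P W := mem_interior_iff_mem_nhds.2 (Filter.mem_inf_principal.1 h)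

theorem opn_sub {E : Type} [TopologicalSpace E] {P W : Set E} {x : E} (h : x ∈ opn P W)
    (hx : x ∈ P) : x ∈ W := interior_subset h hx

theorem unif_nhds {E : Type} [PseudoMetricSpace E] {K P W : Set E} (hK : IsCompact K)
    (h : ∀ x ∈ K, W ∈ 𝓝[P] x) : ∃ δ > 0, ∀ x ∈ K, ∀ y ∈ P, dist x y < δ → y ∈ W := by
  obtain ⟨δ, hδ, hs⟩ := hK.exists_thickening_subset_open (isOpen_opn P W)
    fun x hx => mem_opn (h x hx)
  refine ⟨δ, hδ, fun x hx y hy hxy => opn_sub (hs ?_) hy⟩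
  rw [Metric.mem_thickening_iff]
  exact ⟨x, hx, by rwa [dist_comm]⟩

theorem continuousOn_iterate {Y E : Type} [TopologicalSpace Y] [TopologicalSpace E] {S : Set Y}
    {P : Set E} {g : E → E} (hg : ContinuousOn g P) (hgP : ∀ x ∈ P, g x ∈ P) {f : Y → E}
    (hf : ContinuousOn f S) (hfP : ∀ y ∈ S, f y ∈ P) (i : ℕ) :
    ContinuousOn (fun y => g^[i] (f y)) S ∧ ∀ y ∈ S, g^[i] (f y) ∈ P := by
  induction i with
  | zero => exact ⟨hf, hfP⟩
  | succ i ih =>
    simp only [Function.iterate_succ_apply']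
    exact ⟨hg.comp ih.1 ih.2, fun y hy => hgP _ (ih.2 y hy)⟩

theorem continuousOn_iterate' {Y E : Type} [TopologicalSpace Y] [TopologicalSpace E] {S : Set Y}
    {P : Set E} {g : E → E} (hg : ContinuousOn g P) (hgP : ∀ x ∈ P, g x ∈ P) {f : Y → E}
    (hf : ContinuousOn f S) (hfP : ∀ y ∈ S, f y ∈ P) {σ : Y → ℕ} (hσ : ContinuousOn σ S) :
    ContinuousOn (fun y => g^[σ y] (f y)) S := by
  intro y hy
  have h1 := (continuousOn_iterate hg hgP hf hfP (σ y)).1 y hy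
  refine h1.congr_of_eventuallyEq ?_ rfl
  have h2 : ∀ᶠ z in 𝓝[S] y, σ z = σ y := by
    have h3 : Filter.Tendsto σ (𝓝[S] y) (𝓝 (σ y)) := hσ y hy
    rw [nhds_discrete] at h3
    exact h3.eventually (p := fun m => m = σ y) (Filter.eventually_pure.2 rfl)
  filter_upwards [h2] with z hz
  rw [hz]

end Top

variable {E : Type} [PseudoMetricSpace E] {g : E → E} {n : ℕ} {P : Set E} {F : E → ℝ} {p q : ℕ}
  {c r : ℝ} {θ : (Fin p → ℝ) × (Fin q → ℝ) → E} {κ : E → (Fin p → ℝ) × (Fin q → ℝ)}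
  {σ : E → ℕ} {L : Set E}

theorem LocalBox.isCompact (h : LocalBox g n P F p q c r θ κ σ L) (hg : ContinuousOn g P)
    (hgP : ∀ x ∈ P, g x ∈ P) : IsCompact L := by
  have hK : IsCompact {w : (Fin p → ℝ) × (Fin q → ℝ) | ‖w‖ ≤ r} := by
    have : {w : (Fin p → ℝ) × (Fin q → ℝ) | ‖w‖ ≤ r} = Metric.closedBall 0 r := by
      ext w; simp
    rw [this]
    exact isCompact_closedBall 0 r
  have hL : L = ⋃ i ∈ Finset.range n, (fun w => g^[i] (θ w)) '' {w | ‖w‖ ≤ r} := by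
    ext x
    simp only [mem_iUnion, Finset.mem_range, mem_image, exists_prop]
    constructor
    · intro hx
      exact ⟨σ x, h.σ_lt x hx, κ x, h.κ_le x hx, (h.eq x hx).symm⟩
    · rintro ⟨i, -, w, hw, rfl⟩
      exact iterate_mem h.inv (h.θ_mem w hw) i
  rw [hL]
  refine Finset.isCompact_biUnion _ fun i _ => ?_
  exact hK.image_of_continuousOn
    (continuousOn_iterate hg hgP h.cont_θ (fun w hw => h.L_sub (h.θ_mem w hw)) i).1

/-- Passing a critical level changes the cohomology by at most one dimension. -/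
theorem hh_critical (hP : IsCompact P) (hgP : Inv g P) (hg : ContinuousOn g P)
    (hgn : ∀ x ∈ P, g^[n] x = x) (hF : ContinuousOn F P) (hFg : ∀ x ∈ P, F (g x) = F x)
    (h : LocalBox g n P F p q c r θ κ σ L) {ε₀ : ℝ} (hε₀ : 0 < ε₀)
    (hdesc : ∀ x ∈ P, c - ε₀ ≤ F x → F x ≤ c + ε₀ → ¬ (x ∈ L ∧ κ x = 0) →
      ∃ D, Descent g P F D ∧ ∃ U ∈ 𝓝[P] x, ∀ y ∈ U, F (D 1 y) < F y)
    {k : Type} [Field k] (hcube : ∀ (l : ℕ) {a b : ℝ}, 0 < b → b ≤ a → ∀ j,
      hh id (1 : k) (cube l a) (cubeOut l a b) j ≤ if j = l then 1 else 0) :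
    ∃ ε₁ > 0, ∀ ε, 0 < ε → ε ≤ ε₁ → ∀ {χ : k}, χ ^ n = 1 → ∀ j,
      hh g χ (Sub' P F (c + ε)) (Sub' P F (c - ε)) j ≤ if j = p then 1 else 0 := by
  have hr := h.r_pos
  have hgP' : ∀ x ∈ P, g x ∈ P := fun x hx => (hgP x).2 hx
  have hLc := h.isCompact hg hgP'
  have hp1 : (0 : ℝ) < p + 1 := by positivity
  obtain ⟨r₁, hr₁, hr₁r, hr₁'⟩ : ∃ r₁ : ℝ, 0 < r₁ ∧ 2 * r₁ < r ∧ r₁ ^ 2 * (1 + 4 * p) < r ^ 2 := by
    refine ⟨r / (4 * (p + 1)), by positivity, ?_, ?_⟩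
    · rw [← mul_div_assoc, div_lt_iff₀ (by positivity)]
      nlinarith [mul_pos hr hp1, Nat.cast_nonneg (α := ℝ) p]
    · rw [div_pow, div_mul_eq_mul_div, div_lt_iff₀ (by positivity)]
      have h1 : (1 + 4 * (p : ℝ)) < (4 * (p + 1)) ^ 2 := by
        nlinarith [Nat.cast_nonneg (α := ℝ) p, sq_nonneg (p : ℝ)]
      have h2 : 0 < r ^ 2 := by positivity
      nlinarith
  -- the open neighbourhood `U` of the critical orbit
  set U : Set E := {x | x ∈ L ∧ ‖κ x‖ < r ∧ ∀ i, |(κ x).1 i| < r₁} with hU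
  have hκat : ∀ x ∈ L, ‖κ x‖ < r → ContinuousWithinAt κ P x ∧ L ∈ 𝓝[P] x := by
    intro x hx hxr
    have hn := h.nhds x hx hxr
    have : 𝓝[P] x = 𝓝[L] x := le_antisymm
      (nhdsWithin_le_iff.2 hn) (nhdsWithin_mono x h.L_sub)
    refine ⟨?_, hn⟩
    unfold ContinuousWithinAt
    rw [this]
    exact h.cont_κ x hx
  have hUn : ∀ x ∈ U, U ∈ 𝓝[P] x := by
    rintro x ⟨hx, hxr, hxi⟩
    obtain ⟨h1, h2⟩ := hκat x hx hxr
    have h3 : ∀ᶠ y in 𝓝[P] x, ‖κ y‖ < r := h1.norm.eventually (Iio_mem_nhds hxr)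
    have h4 : ∀ᶠ y in 𝓝[P] x, ∀ i, |(κ y).1 i| < r₁ := by
      rw [Filter.eventually_all]
      intro i
      have : ContinuousWithinAt (fun y => |(κ y).1 i|) P x :=
        ((continuous_apply i).comp continuous_fst).abs.continuousAt.comp_continuousWithinAt h1
      exact this.eventually (Iio_mem_nhds (hxi i))
    filter_upwards [h2, h3, h4] with y e1 e2 e3 using ⟨e1, e2, e3⟩
  have hKc : IsCompact ({x ∈ P | c - ε₀ ≤ F x ∧ F x ≤ c + ε₀} ∩ (opn P U)ᶜ) :=
    (isCompact_slab hP hF _ _).inter_right (isOpen_opn P U).isClosed_compl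
  obtain ⟨D, hD, hlt⟩ := exists_descent (g := g) (F := F) hKc (fun x hx => hx.1.1) (by
    rintro x ⟨⟨hx, hx1, hx2⟩, hxU⟩
    refine hdesc x hx hx1 hx2 ?_
    rintro ⟨hxL, hx0⟩
    exact hxU (mem_opn (hUn x ⟨hxL, by rw [hx0, norm_zero]; exact hr, fun i => by
      rw [hx0]; simpa using hr₁⟩)))
  obtain ⟨η, hη, hgap⟩ := exists_gap hD hF hKc (fun x hx => hx.1.1) hlt
  refine ⟨min ε₀ (min (η / 2) (r₁ ^ 2)), lt_min hε₀ (lt_min (by positivity) (by positivity)),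
    fun ε hε hεle χ hχ j => ?_⟩
  have hεε₀ : ε ≤ ε₀ := hεle.trans (min_le_left _ _)
  have hεη : 2 * ε ≤ η := by
    have := hεle.trans ((min_le_right _ _).trans (min_le_left _ _)); linarith
  have hεr : ε ≤ r₁ ^ 2 := hεle.trans ((min_le_right _ _).trans (min_le_right _ _))
  set X := Sub' P F (c + ε) with hX
  set A := Sub' P F (c - ε) with hA
  set B : Set E := A ∪ {x ∈ X | ¬ (x ∈ L ∧ ∀ i, |(κ x).1 i| < r₁)} with hB
  have hAX : A ⊆ X := Sub'_mono (by linarith)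
  have hBX : B ⊆ X := union_subset hAX fun x hx => hx.1
  have hXP : X ⊆ P := fun x hx => hx.1
  -- points of `X ∩ L` with small `u` have small `v`
  have hsmall : ∀ x ∈ X, x ∈ L → (∀ i, |(κ x).1 i| ≤ 2 * r₁) → ‖κ x‖ < r := by
    intro x hx hxL hxi
    have hv := h.value x hxL
    have h1 : ∑ i, (κ x).1 i ^ 2 ≤ p * (4 * r₁ ^ 2) := by
      have : ∑ i, (κ x).1 i ^ 2 ≤ ∑ i : Fin p, 4 * r₁ ^ 2 := Finset.sum_le_sum fun i _ => by
        rw [← sq_abs]
        have := pow_le_pow_left₀ (abs_nonneg _) (hxi i) 2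
        nlinarith
      simpa using this
    have h2 : ∑ i, (κ x).2 i ^ 2 ≤ r₁ ^ 2 * (1 + 4 * p) := by
      have := hx.2
      nlinarith
    rw [Prod.norm_def, max_lt_iff]
    constructor
    · rw [pi_norm_lt_iff hr]
      intro i
      rw [Real.norm_eq_abs]
      linarith [hxi i]
    · rw [pi_norm_lt_iff hr]
      intro i
      rw [Real.norm_eq_abs]
      have h3 : (κ x).2 i ^ 2 ≤ ∑ i, (κ x).2 i ^ 2 :=
        Finset.single_le_sum (f := fun i => (κ x).2 i ^ 2) (fun i _ => sq_nonneg _)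
          (Finset.mem_univ i)
      exact abs_lt_of_sq_lt_sq (by linarith) hr.le
  -- push `B` into `A`
  have e1 : hh g χ X A j ≤ hh g χ X B j := by
    refine hD.hh_le hP subset_union_left hBX (fun x hx => ?_) χ j
    rcases hx with hx | ⟨hx, hxU⟩
    · exact (hD.le 1 ⟨zero_le_one, le_rfl⟩ x hx.1).trans hx.2
    · rcases le_total (F x) (c - ε) with h1 | h1
      · exact (hD.le 1 ⟨zero_le_one, le_rfl⟩ x hx.1).trans h1
      · have hx2 : F x ≤ c + ε := hx.2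
        have := hgap x ⟨⟨hx.1, by linarith, by linarith⟩, fun hxo =>
          hxU ⟨(opn_sub hxo hx.1).1, (opn_sub hxo hx.1).2.2⟩⟩
        linarith
  -- excision
  set L₁ : Set E := {x ∈ X | x ∈ L ∧ ∀ i, |(κ x).1 i| ≤ 2 * r₁} with hL₁
  have hgL₁ : Inv g L₁ := by
    intro x
    have hXi := Sub'_inv (F := F) hgP hFg (c + ε) x
    constructor
    · rintro ⟨h1, h2, h3⟩
      have h2' := (h.inv x).1 h2
      rw [h.κ_g x h2'] at h3
      exact ⟨hXi.1 h1, h2', h3⟩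
    · rintro ⟨h1, h2, h3⟩
      refine ⟨hXi.2 h1, (h.inv x).2 h2, ?_⟩
      rwa [h.κ_g x h2]
  have hcl : IsClosed {w : (Fin p → ℝ) × (Fin q → ℝ) | ∀ i, |w.1 i| ≤ r₁} := by
    simp only [ofPred_forall]
    exact isClosed_iInter fun i => isClosed_le (by fun_prop) continuous_const
  have hCc : IsCompact {x ∈ {x ∈ L | κ x ∈ {w : (Fin p → ℝ) × (Fin q → ℝ) | ∀ i, |w.1 i| ≤ r₁}} |
      F x ∈ Iic (c + ε)} := by
    refine isCompact_inter_pre (isCompact_inter_pre hLc h.cont_κ hcl) (hF.mono ?_) isClosed_Iic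
    exact fun x hx => h.L_sub hx.1
  obtain ⟨δ, hδ, hδ'⟩ := unif_nhds (P := P)
    (W := {x | x ∈ L ∧ ∀ i, |(κ x).1 i| ≤ 2 * r₁}) hCc (by
      rintro x ⟨⟨hx, hxi⟩, hxF⟩
      have hxr : ‖κ x‖ < r := hsmall x ⟨h.L_sub hx, hxF⟩ hx fun i => (hxi i).trans (by linarith)
      obtain ⟨h1, h2⟩ := hκat x hx hxr
      have h4 : ∀ᶠ y in 𝓝[P] x, ∀ i, |(κ y).1 i| < 2 * r₁ := by
        rw [Filter.eventually_all]
        intro i
        have : ContinuousWithinAt (fun y => |(κ y).1 i|) P x :=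
          ((continuous_apply i).comp continuous_fst).abs.continuousAt.comp_continuousWithinAt h1
        exact this.eventually (Iio_mem_nhds (lt_of_le_of_lt (hxi i) (by linarith)))
      filter_upwards [h2, h4] with y e1 e2 using ⟨e1, fun i => (e2 i).le⟩)
  have e2 : hh g χ X B j ≤ hh g χ L₁ (L₁ ∩ B) j := by
    refine hh_le_excision (fun x hx => hx.1) hgL₁ hδ (fun x hx hxB y hy hxy => ?_) χ j
    have hx' : x ∈ L ∧ ∀ i, |(κ x).1 i| < r₁ := by
      by_contra hcon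
      exact hxB (Or.inr ⟨hx, hcon⟩)
    exact ⟨hy, hδ' x ⟨⟨hx'.1, fun i => (hx'.2 i).le⟩, hx.2⟩ y hy.1 hxy⟩
  -- the sheet
  have hL₁c : IsCompact L₁ := by
    have hcl' : IsClosed {w : (Fin p → ℝ) × (Fin q → ℝ) | ∀ i, |w.1 i| ≤ 2 * r₁} := by
      simp only [ofPred_forall]
      exact isClosed_iInter fun i => isClosed_le (by fun_prop) continuous_const
    have hc := isCompact_inter_pre (isCompact_inter_pre hLc h.cont_κ hcl')
      (hF.mono fun x hx => h.L_sub hx.1) (isClosed_Iic (a := c + ε))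
    have : L₁ = {x ∈ {x ∈ L | κ x ∈ {w : (Fin p → ℝ) × (Fin q → ℝ) | ∀ i, |w.1 i| ≤ 2 * r₁}} |
        F x ∈ Iic (c + ε)} := by
      ext x
      constructor
      · rintro ⟨h1, h2, h3⟩; exact ⟨⟨h2, h3⟩, h1.2⟩
      · rintro ⟨⟨h2, h3⟩, h1⟩; exact ⟨⟨h.L_sub h2, h1⟩, h2, h3⟩
    rw [this]; exact hc
  have hL₁L : L₁ ⊆ L := fun x hx => hx.2.1
  -- facts on the points `θ (u, v)`
  have hθ : ∀ u v, (∀ i, |u i| ≤ 2 * r₁) → ∑ i, v i ^ 2 ≤ ε + ∑ i, u i ^ 2 → ‖(u, v)‖ ≤ r →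
      θ (u, v) ∈ L₁ := by
    intro u v hu huv hn
    have h1 := h.θ_mem (u, v) hn
    have h2 := h.value _ h1
    rw [h.κ_θ _ hn] at h2
    refine ⟨⟨h.L_sub h1, ?_⟩, h1, ?_⟩
    · rw [h2]; linarith
    · rw [h.κ_θ _ hn]; exact hu
  have hnu : ∀ u : Fin p → ℝ, (∀ i, |u i| ≤ 2 * r₁) → ‖(u, (0 : Fin q → ℝ))‖ ≤ r := by
    intro u hu
    rw [Prod.norm_def, norm_zero, max_le_iff]
    exact ⟨(pi_norm_le_iff_of_nonneg hr.le).2 fun i => by
      rw [Real.norm_eq_abs]; linarith [hu i], hr.le⟩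
  have hBiff : ∀ x ∈ L₁, x ∈ B ↔ ε ≤ ∑ i, (κ x).1 i ^ 2 - ∑ i, (κ x).2 i ^ 2 ∨
      ¬ ∀ i, |(κ x).1 i| < r₁ := by
    intro x hx
    have hv := h.value x hx.2.1
    constructor
    · rintro (hxA | hxU)
      · left; have := hxA.2; linarith
      · right; exact fun hcon => hxU.2 ⟨hx.2.1, hcon⟩
    · rintro (h1 | h1)
      · left; exact ⟨hx.1.1, by linarith⟩
      · right; exact ⟨hx.1, fun hcon => h1 hcon.2⟩
  have hout : ∀ u : Fin p → ℝ, ¬ (∀ i, |u i| < r₁) → ε ≤ ∑ i, u i ^ 2 := by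
    intro u hu
    push Not at hu
    obtain ⟨i, hi⟩ := hu
    calc ε ≤ r₁ ^ 2 := hεr
      _ ≤ |u i| ^ 2 := pow_le_pow_left₀ hr₁.le hi 2
      _ = u i ^ 2 := sq_abs _
      _ ≤ ∑ i, u i ^ 2 := Finset.single_le_sum (f := fun i => u i ^ 2)
        (fun i _ => sq_nonneg _) (Finset.mem_univ i)
  -- the deformation of a point of `L₁`
  have hdef : ∀ s ∈ Icc (0 : ℝ) 1, ∀ x ∈ L₁,
      ‖((κ x).1, (1 - s) • (κ x).2)‖ ≤ r ∧ θ ((κ x).1, (1 - s) • (κ x).2) ∈ L₁ ∧
      (x ∈ B → θ ((κ x).1, (1 - s) • (κ x).2) ∈ B) := by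
    intro s hs x hx
    have hκr := h.κ_le x hx.2.1
    have hs1 : |1 - s| ≤ 1 := by rw [abs_le]; constructor <;> linarith [hs.1, hs.2]
    have hn : ‖((κ x).1, (1 - s) • (κ x).2)‖ ≤ r := by
      rw [Prod.norm_def, max_le_iff] at hκr ⊢
      refine ⟨hκr.1, ?_⟩
      rw [norm_smul, Real.norm_eq_abs]
      calc |1 - s| * ‖(κ x).2‖ ≤ 1 * ‖(κ x).2‖ :=
            mul_le_mul_of_nonneg_right hs1 (norm_nonneg _)
        _ ≤ r := by rw [one_mul]; exact hκr.2
    have hsum : ∑ i, ((1 - s) • (κ x).2) i ^ 2 ≤ ∑ i, (κ x).2 i ^ 2 := by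
      refine Finset.sum_le_sum fun i _ => ?_
      rw [Pi.smul_apply, smul_eq_mul, mul_pow, ← sq_abs (1 - s)]
      have : |1 - s| ^ 2 ≤ 1 := pow_le_one₀ (abs_nonneg _) hs1
      nlinarith [sq_nonneg ((κ x).2 i)]
    have hv := h.value x hx.2.1
    have hm := hθ (κ x).1 ((1 - s) • (κ x).2) hx.2.2 (by have := hx.1.2; linarith) hn
    refine ⟨hn, hm, fun hxB => ?_⟩
    rw [hBiff _ hm, h.κ_θ _ hn]
    rcases (hBiff x hx).1 hxB with h1 | h1
    · left; simp only; linarith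
    · right; exact h1
  have hiter : ∀ {x : E}, x ∈ B ∩ L₁ → ∀ i, g^[i] x ∈ B := by
    intro x hx i
    have hxi : g^[i] x ∈ L₁ := iterate_mem hgL₁ hx.2 i
    have hκi : ∀ i, κ (g^[i] x) = κ x := by
      intro i
      induction i with
      | zero => rfl
      | succ i ih =>
        rw [Function.iterate_succ_apply', h.κ_g _ (iterate_mem h.inv hx.2.2.1 i), ih]
    rw [hBiff _ hxi, hκi]
    exact (hBiff x hx.2).1 hx.1
  have e3 : hh g χ L₁ (L₁ ∩ B) j ≤
      hh id (1 : k) (cube p (2 * r₁)) (ballOut p (2 * r₁) ε) j := by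
    refine hh_le_sheet (n := n) (σ := σ) (i := fun u => θ (u, 0)) (pr := fun x => (κ x).1)
      (R := fun s x => g^[σ x] (θ ((κ x).1, (1 - s) • (κ x).2))) hχ inter_subset_left hgL₁
      ?_ ?_ (fun x hx => h.σ_g x hx.2.1) (fun x hx => h.σ_lt x hx.2.1) ?_ ?_ ?_ ?_
      (fun u hu => hu.1) j
    · refine ⟨fun u hu => ?_, fun u hu => ?_, fun _ _ => rfl,
        uc_of_compact' (isCompact_cube _ _) ?_⟩
      · refine hθ u 0 hu ?_ (hnu u hu)
        simp only [Pi.zero_apply, ne_eq, OfNat.ofNat_ne_zero, not_false_eq_true, zero_pow,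
          Finset.sum_const_zero]
        have : 0 ≤ ∑ i, u i ^ 2 := Finset.sum_nonneg fun i _ => sq_nonneg _
        linarith
      · have hm : θ (u, 0) ∈ L₁ := by
          refine hθ u 0 hu.1 ?_ (hnu u hu.1)
          simp only [Pi.zero_apply, ne_eq, OfNat.ofNat_ne_zero, not_false_eq_true, zero_pow,
            Finset.sum_const_zero]
          have : 0 ≤ ∑ i, u i ^ 2 := Finset.sum_nonneg fun i _ => sq_nonneg _
          linarith
        refine ⟨hm, (hBiff _ hm).2 (Or.inl ?_)⟩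
        rw [h.κ_θ _ (hnu u hu.1)]
        simpa using hu.2
      · refine h.cont_θ.comp (by fun_prop) fun u hu => hnu u hu
    · refine ⟨fun x hx => hx.2.2, fun x hx => ⟨hx.1.2.2, ?_⟩, fun x hx => ?_,
        uc_of_compact' hL₁c (continuous_fst.comp_continuousOn (h.cont_κ.mono hL₁L))⟩
      · rcases (hBiff x hx.1).1 hx.2 with h1 | h1
        · have : 0 ≤ ∑ i, (κ x).2 i ^ 2 := Finset.sum_nonneg fun i _ => sq_nonneg _
          linarith
        · exact hout _ h1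
      · simp only [h.κ_g x hx.2.1]; rfl
    · obtain ⟨δ, hδ, h1⟩ := uc_of_compact' hL₁c (h.cont_σ.mono hL₁L) 1 one_pos
      refine ⟨δ, hδ, fun x hx y hy hxy => ?_⟩
      have := h1 x hx y hy hxy
      rw [Nat.dist_eq] at this
      have h2 : |((σ x : ℤ) : ℝ) - ((σ y : ℤ) : ℝ)| < 1 := by exact_mod_cast this
      rw [← Int.cast_sub, ← Int.cast_abs] at h2
      have h3 : |(σ x : ℤ) - (σ y : ℤ)| < 1 := by exact_mod_cast h2
      rw [Int.abs_lt_one_iff, sub_eq_zero] at h3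
      exact_mod_cast h3
    · have hgf : ∀ s ∈ Icc (0 : ℝ) 1, ∀ x ∈ L₁,
          g^[σ (g x)] (θ ((κ (g x)).1, (1 - s) • (κ (g x)).2)) =
            g (g^[σ x] (θ ((κ x).1, (1 - s) • (κ x).2))) := by
        intro s hs x hx
        rw [h.κ_g x hx.2.1, h.σ_g x hx.2.1]
        split_ifs with hlt
        · rw [Function.iterate_succ_apply']
        · have hσ : σ x + 1 = n := by have := h.σ_lt x hx.2.1; omega
          rw [← Function.iterate_succ_apply' g, Nat.succ_eq_add_one, hσ,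
            hgn _ (h.L_sub (hdef s hs x hx).2.1.2.1)]
          rfl
      refine ⟨fun s hs x hx => iterate_mem hgL₁ (hdef s hs x hx).2.1 _,
        fun s hs x hx => ⟨iterate_mem hgL₁ (hdef s hs x hx.1).2.1 _, ?_⟩, hgf,
        uc_of_compact hL₁c ?_⟩
      · exact hiter ⟨(hdef s hs x hx.1).2.2 hx.2, (hdef s hs x hx.1).2.1⟩ _
      · refine continuousOn_iterate' hg hgP' (σ := fun q : ℝ × E => σ q.2) ?_
          (fun q hq => h.L_sub (hdef q.1 hq.1 q.2 hq.2).2.1.2.1) ?_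
        · refine h.cont_θ.comp ?_ fun q hq => (hdef q.1 hq.1 q.2 hq.2).1
          have hκ2 : ContinuousOn (fun q : ℝ × E => κ q.2) (Icc (0 : ℝ) 1 ×ˢ L₁) :=
            (h.cont_κ.mono hL₁L).comp continuous_snd.continuousOn fun q hq => hq.2
          exact (continuous_fst.comp_continuousOn hκ2).prodMk
            ((continuous_const.sub continuous_fst).continuousOn.smul
              (continuous_snd.comp_continuousOn hκ2))
        · exact (h.cont_σ.mono hL₁L).comp continuous_snd.continuousOn fun q hq => hq.2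
    · intro x hx
      simp only [sub_zero, one_smul, Prod.mk.eta]
      exact (h.eq x hx.2.1).symm
    · intro x hx
      simp only [sub_self, zero_smul]
  have ha : (0 : ℝ) < 2 * r₁ := by positivity
  have hεa : ε ≤ (2 * r₁) ^ 2 := by nlinarith
  refine e1.trans (e2.trans (e3.trans ((hh_ball_le p ha hε hεa 1 j).trans
    (hcube p (Real.sqrt_pos.2 (by positivity)) ?_ j))))
  rw [Real.sqrt_le_left ha.le]
  calc ε / (p + 1) ≤ ε := div_le_self hε.le (by linarith [Nat.cast_nonneg (α := ℝ) p])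
    _ ≤ (2 * r₁) ^ 2 := hεa

end Vale.Agent.P265.AS
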