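import Vale.Agent.P265.H336.Level

/-! The local contribution of a critical orbit. -/

open Set Matrix Topology

namespace Vale.Agent.P265.AS

section Sheets

variable {E : Type} [PseudoMetricSpace E] {g : E → E} {n : ℕ}

omit [PseudoMetricSpace E] in
theorem iterate_mem {X : Set E} (hX : Inv g X) {x : E} (hx : x ∈ X) (i : ℕ) : g^[i] x ∈ X := by
  induction i with
  | zero => exact hx
  | succ i ih => rw [Function.iterate_succ_apply']; exact (hX _).2 ih

omit [PseudoMetricSpace E] in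
theorem Eqv.iterate {k : Type} [Field k] {χ : k} {X : Set E} (hX : Inv g X) {m : ℕ}
    {c : (Fin m → E) → k} (hc : Eqv g χ X c) (i : ℕ) {x : Fin m → E} (hx : ∀ j, x j ∈ X) :
    c (g^[i] ∘ x) = χ ^ i * c x := by
  induction i with
  | zero => simp
  | succ i ih =>
    rw [Function.iterate_succ', Function.comp_assoc,
      hc (g^[i] ∘ x) fun j => iterate_mem hX (hx j) i, ih, pow_succ]
    ring

/-- Cohomology of a disjoint union of `n` translates of a contractible-onto-`D` sheet. -/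
theorem hh_le_sheet {E' : Type} [PseudoMetricSpace E'] {k : Type} [Field k] {χ : k}
    (hχ : χ ^ n = 1)
    {X A : Set E} (hA : A ⊆ X) (hX : Inv g X) {D D' : Set E'}
    {i : E' → E} {pr : E → E'} {σ : E → ℕ} {R : ℝ → E → E}
    (hi : IsMapP id id D D' X A i) (hpr : IsMapP g id X A D D' pr)
    (hσg : ∀ x ∈ X, σ (g x) = if σ x + 1 < n then σ x + 1 else 0)
    (hσn : ∀ x ∈ X, σ x < n)
    (hσc : ∃ δ > 0, ∀ x ∈ X, ∀ y ∈ X, dist x y < δ → σ x = σ y)
    (hR : IsHtpy g g X A X A R) (hR0 : ∀ x ∈ X, R 0 x = x)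
    (hR1 : ∀ x ∈ X, R 1 x = g^[σ x] (i (pr x))) (hD' : D' ⊆ D) (p : ℕ) :
    hh g χ X A p ≤ hh id (1 : k) D D' p := by

  refine qr_le_of_inj (pb i) ?_ ?_
  · rintro c ⟨hc, ε, hε, h1, h2⟩
    obtain ⟨δ, hδ, h3⟩ := hi.uc ε hε
    refine ⟨fun x _ => by simp, δ, hδ, fun x hx => ?_, fun x hx => ?_⟩
    · rw [d_pb, pb_apply, h1 _ (hx.map hi h3)]
    · exact h2 _ (hx.mapA hi hD' h3)
  · rintro c ⟨hc, ε, hε, h1, h2⟩ ⟨b, -, ε', hε', h1', h2'⟩
    obtain ⟨δ, hδ, hσδ⟩ := hσc
    obtain ⟨δ', hδ', hpr'⟩ := hpr.uc ε' hε'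
    -- the primitive
    let s : (Fin p → E) → ℕ := fun x => if h : 0 < p then σ (x ⟨0, h⟩) else 0
    let b' : (Fin p → E) → k := fun x => χ ^ s x * b (pr ∘ x)
    have hb' : Eqv g χ X b' := by
      intro x hx
      by_cases hp : 0 < p
      · have e1 : s (g ∘ x) = σ (g (x ⟨0, hp⟩)) := by simp [s, hp]
        have e2 : s x = σ (x ⟨0, hp⟩) := by simp [s, hp]
        have e3 : pr ∘ g ∘ x = pr ∘ x := funext fun j => hpr.eqv _ (hx j)
        have e4 : χ ^ s (g ∘ x) = χ * χ ^ s x := by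
          rw [e1, e2, hσg _ (hx _)]
          split_ifs with h
          · rw [pow_succ']
          · have : σ (x ⟨0, hp⟩) + 1 = n := by have := hσn _ (hx ⟨0, hp⟩); omega
            rw [pow_zero, ← pow_succ', this, hχ]
        change χ ^ s (g ∘ x) * b (pr ∘ g ∘ x) = χ * (χ ^ s x * b (pr ∘ x))
        rw [e3, e4, mul_assoc]
      · have hp0 : p = 0 := by omega
        subst hp0
        have e1 : b (pr ∘ (g ∘ x)) = 0 := h2' _ ⟨fun j => j.elim0, fun j => j.elim0⟩
        have e2 : b (pr ∘ x) = 0 := h2' _ ⟨fun j => j.elim0, fun j => j.elim0⟩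
        change χ ^ s (g ∘ x) * b (pr ∘ g ∘ x) = χ * (χ ^ s x * b (pr ∘ x))
        rw [e1, e2]; simp
    have hconst : ∀ {m : ℕ} {x : Fin (m + 1) → E}, Sm X δ x → ∀ j, σ (x j) = σ (x 0) :=
      fun hx j => hσδ _ (hx.1 _) _ (hx.1 _) (hx.2 _ _)
    have key : pb (R 1) c ∈ Bs g χ X A p := by
      refine ⟨b', hb', min δ δ', lt_min hδ hδ', fun x hx => ?_, fun x hx => ?_⟩
      · have hx1 := hconst (hx.mono le_rfl (min_le_left _ _))
        have e1 : R 1 ∘ x = g^[σ (x 0)] ∘ i ∘ pr ∘ x := by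
          funext j
          have := hR1 _ (hx.1 j)
          rw [hx1 j] at this
          exact this
        have e2 : Sm D ε' (pr ∘ x) :=
          Sm.map (δ := δ') hpr hpr' (hx.mono le_rfl (min_le_right _ _))
        rw [pb_apply, e1, hc.iterate hX _ (x := i ∘ pr ∘ x) fun j => hi.mapsX _ (e2.1 j)]
        have e3 := h1' _ e2
        rw [pb_apply] at e3
        rw [e3]
        have e4 : d b' x = d (χ ^ σ (x 0) • pb pr b) x := by
          refine d_congr fun y hy => ?_
          change χ ^ s y * b (pr ∘ y) = χ ^ σ (x 0) * b (pr ∘ y)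
          by_cases hp : 0 < p
          · obtain ⟨j, hj⟩ := hy ⟨0, hp⟩
            have : s y = σ (x 0) := by
              simp only [s, hp, dif_pos]
              rw [hj, hx1 j]
            rw [this]
          · have hp0 : p = 0 := by omega
            subst hp0
            have e1 : b (pr ∘ y) = 0 := h2' _ ⟨fun j => j.elim0, fun j => j.elim0⟩
            rw [e1]; simp
        rw [e4, d_smul, Pi.smul_apply, d_pb, pb_apply, smul_eq_mul]
      · change χ ^ s x * b (pr ∘ x) = 0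
        rw [h2' _ (Sm.mapA (δ := δ') hpr hA hpr' (hx.mono le_rfl (min_le_right _ _))), mul_zero]
    have e2 := homotopy hR hA (χ := χ) ⟨hc, ε, hε, h1, h2⟩
    have e3 := (Bs g χ X A p).sub_mem key e2
    refine Bs_congr e3 one_pos fun x hx => ?_
    have a0 : R 0 ∘ x = x := funext fun i => hR0 _ (hx.1 i)
    simp only [Pi.sub_apply, pb_apply, a0]
    ring

end Sheets

end Vale.Agent.P265.AS
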