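import Vale.Agent.P265.H336.Abs
import Vale.Agent.P265.H336.Susp

/-! The abstract Morse inequality, final form. -/

open Set

namespace Vale.Agent.P265.AS

theorem absMorse : AbsMorse := absMorse_of_cube fun l _ _ hb hba j => hh_cube_le l hb hba 1 j

/-- Suspension in the form used at infinity. -/
theorem hh_le_cylinder {N : Type} [PseudoMetricSpace N] {k : Type} [Field k] (g : N → N)
    {a b : ℝ} (hb : 0 < b) (hba : b ≤ a) (χ : k) (ν j : ℕ) :
    hh g χ univ ∅ j ≤ hh (Prod.map g id) χ {x : N × (Fin ν → ℝ) | ∀ i, |x.2 i| ≤ a}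
      {x | (∀ i, |x.2 i| ≤ a) ∧ ∃ i, b ≤ |x.2 i|} (j + ν) := by
  have h := hh_boxS_ge (g := g) (X := univ) (X₀ := ∅) (empty_subset _) hb hba χ ν j
  have e1 : boxS (univ : Set N) a ν = {x : N × (Fin ν → ℝ) | ∀ i, |x.2 i| ≤ a} := by
    ext x; simp [boxS]
  have e2 : boxS₀ (univ : Set N) ∅ a b ν =
      {x : N × (Fin ν → ℝ) | (∀ i, |x.2 i| ≤ a) ∧ ∃ i, b ≤ |x.2 i|} := by
    ext x; simp [boxS₀]
  rwa [e1, e2] at h

end Vale.Agent.P265.AS
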